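import Vale.Agent.P354KK.Main
import Vale.Agent.P354K.Fin
import Vale.Agent.P354KT.Main

namespace Vale.Agent.P354KK

/-- The kick, unconditionally. -/
theorem kick_main : P354D.KICK := kick P354K.corek (P354KT.wit P354KD.alg0)

end Vale.Agent.P354KK
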