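import Vale.Agent.P354KK.Loc
import Vale.Agent.P354K.Top
import Vale.Agent.P354JP.Main

open scoped ContDiff
open MeasureTheory Set Filter Topology Matrix

noncomputable section

namespace Vale.Agent.P354KK

open Vale.Agent.P354H (X3 pd pdl tr pd_tr pdl_tr)
open Vale.Agent.P354C (Ix)
open Vale.Agent.P354J
open Vale.Agent.P354K (n0 kOf par cube COREK Wit jet piOf UC co)
open Vale.Agent.P354KC (Lo)

theorem ball_cube : Metric.closedBall (0 : X3) 3 ⊆ cube := fun y hy i =>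
  ((P354K.abs_co_le i y).trans (mem_closedBall_zero_iff.1 hy)).trans_lt Real.pi_gt_three

theorem cube_ball : cube ⊆ Metric.closedBall (0 : X3) 4 := fun y hy => by
  have h := fun i => ((hy i).trans Real.pi_lt_four).le
  exact mem_closedBall_zero_iff.2 (max_le (h 0) (max_le (h 1) (h 2)))

/-- The profile of the main packet. -/
structure Prof (χ : X3 → ℝ) (Λ : ℝ) : Prop where
  sm : ContDiff ℝ ∞ χ
  one : ∀ y ∈ Metric.closedBall (0 : X3) 2, χ y = 1
  zero : ∀ y ∉ Metric.closedBall (0 : X3) 3, χ y = 0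
  bd : ∀ y, Ba 6 6 χ y Λ

theorem ex_prof : ∃ χ Λ, Prof χ Λ := by
  let b : ContDiffBump (0 : X3) := ⟨2, 3, two_pos, by norm_num⟩
  obtain ⟨C, hC⟩ := (P354K.ub_of_cs (P := Unit) b.contDiff b.hasCompactSupport).2 6
  exact ⟨b, C, b.contDiff, fun y hy => b.one_of_mem_closedBall hy, fun y hy =>
    b.zero_of_le_dist (not_lt.1 fun h => hy (Metric.ball_subset_closedBall h)),
    fun y α h _ => hC () α h y⟩

theorem n0_zero {α : List (Fin 3)} (h : (0 : Fin 3) ∉ α) : n0 α ≤ 0 :=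
  (List.count_eq_zero_of_not_mem h).le

theorem cf_le (i : Ix) : |cf i| ≤ 1 := by
  rw [cf_eq]
  split_ifs <;> simp

theorem cf_cpt (b : Bool) : |cf (P354D.cpt b)| = 1 := by
  cases b <;> simp [cf_eq, P354D.cpt]

/-- The result in a chart. -/
structure Res (b : Bool) (Λ l A c : ℝ) (m : ℕ) (K1 : Set X3) (h K h' K' : X3 → M3) : Prop where
  pd : PD (h + h') (K + K')
  cc : ∀ y, CC (h + h') (K + K') y
  supp : ∀ y, y ∉ cube → h' y = 0 ∧ K' y = 0
  small : ∀ α : List (Fin 3), α.length ≤ m → ∀ y i j,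
    |pdl α (fun z => h' z i j) y| ≤ c ∧ |pdl α (fun z => K' z i j) y| ≤ c
  zero : ∀ y, y ∉ cube → U0 (h + h') (K + K') y = U0 h K y
  bound : ∀ i (α : List (Fin 3)), α.length ≤ 4 → (0 : Fin 3) ∉ α → ∀ y, y ∉ K1 →
    |pdl α (fun z => U0 (h + h') (K + K') z i - U0 h K z i) y| ≤ Λ * A
  low : ∀ y ∈ Metric.closedBall (0 : X3) 2, y ∉ K1 → 1 / 4 ≤ |Real.sin (l * y.1)| →
    A ≤ |U0 (h + h') (K + K') y (P354D.cpt b) - U0 h K y (P354D.cpt b)|

theorem res_of {χ : X3 → ℝ} {Λ : ℝ} (hχ : Prof χ Λ) {b : Bool} {l e c η : ℝ} {m : ℕ} {K1 : Set X3}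
    {h K h' K' : X3 → M3} (D : PD h K) (D' : PD (h + h') (K + K'))
    (cc : ∀ y, CC (h + h') (K + K') y) (supp : ∀ y, y ∉ cube → h' y = 0 ∧ K' y = 0)
    (small : ∀ α : List (Fin 3), α.length ≤ m → ∀ y i j,
      |pdl α (fun z => h' z i j) y| ≤ c ∧ |pdl α (fun z => K' z i j) y| ≤ c)
    (he : 0 ≤ e * l) (hη : η ≤ e * l / 8)
    (H : ∀ y ∈ cube, y ∉ K1 → ∀ i, Ba 0 4 (fun z => U0 (h + h') (K + K') z i - U0 h K z i -
      pd 0 (cs l e) z * χ z * cf i) y η) :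
    Res b (8 * Λ + 1) l (e * l / 8) c m K1 h K h' K' := by
  have sh' : MS h' := fun a b => by simpa using (D'.sh a b).sub (D.sh a b)
  have sK' : MS K' := fun a b => by simpa using (D'.sK a b).sub (D.sK a b)
  have z : ∀ y, y ∉ cube → ∀ i, U0 (h + h') (K + K') y i = U0 h K y i := fun y hy =>
    U0_loc D D' fun a b α =>
      ⟨P354KC.pdl_out α (sh' a b) (fun y hy => by simp [(supp y hy).1]) y hy,
        P354KC.pdl_out α (sK' a b) (fun y hy => by simp [(supp y hy).2]) y hy⟩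
  have L0 := (hχ.bd 0).nonneg
  have s := fun i => (D'.smU0 i).sub (D.smU0 i)
  have p0 : ∀ y, |pd 0 (cs l e) y| = e * l * |Real.sin (l * y.1)| := fun y => by
    simp only [pd_cs, if_true, abs_neg, abs_mul (e * l), abs_of_nonneg he]
  refine ⟨D', cc, supp, small, fun y hy => funext (z y hy), fun i α h1 h2 y hy => ?_,
    fun y hy hy' hs => ?_⟩
  · by_cases hc : y ∈ cube
    swap
    · rw [P354KC.pdl_out α (s i) (fun y hy => sub_eq_zero.2 (z y hy i)) y hc, abs_zero]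
      positivity
    have s1 := sm_pd (cs_sm l e) 0
    have k := H y hc hy i α h1 (n0_zero h2)
    have e1 : (fun z => pd 0 (cs l e) z * χ z * cf i) = fun z => (cf i * pd 0 (cs l e) z) * χ z :=
      funext fun z => by ring
    have e2 : ∀ j ≠ 0, pd j (fun z => cf i * pd 0 (cs l e) z) = fun _ => 0 := fun j hj => by
      rw [P354K.pd_cmul j _ s1, pd_cs]
      simp only [if_true]
      rw [pd_fst (F := fun x => -(e * l * Real.sin (l * x)))
        (fun x => (((hasDerivAt_id x).const_mul l).sin.const_mul (e * l)).neg) j]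
      simp [hj]
    rw [pdl_sub (s i) ((s1.mul hχ.sm).mul contDiff_const), e1,
      pdl_xmul (contDiff_const.mul s1) hχ.sm e2 (n0_zero h2), Real.norm_eq_abs] at k
    have k2 : |cf i * pd 0 (cs l e) y * pdl α χ y| ≤ 1 * (e * l) * Λ := by
      rw [abs_mul, abs_mul, p0]
      exact mul_le_mul (mul_le_mul (cf_le i) (mul_le_of_le_one_right he (Real.abs_sin_le_one _))
        (by positivity) zero_le_one) (hχ.bd y α (by omega) ((n0_zero h2).trans (by omega)))
        (abs_nonneg _) (by positivity)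
    have k3 := abs_sub_abs_le_abs_sub (pdl α (fun z => U0 (h + h') (K + K') z i - U0 h K z i) y)
      (cf i * pd 0 (cs l e) y * pdl α χ y)
    linarith
  · have k := (H y (ball_cube (Metric.closedBall_subset_closedBall (by norm_num) hy)) hy'
      (P354D.cpt b)).zero
    rw [Real.norm_eq_abs, hχ.one y hy, abs_sub_comm] at k
    have k3 := abs_sub_abs_le_abs_sub (pd 0 (cs l e) y * 1 * cf (P354D.cpt b))
      (U0 (h + h') (K + K') y (P354D.cpt b) - U0 h K y (P354D.cpt b))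
    rw [abs_mul, cf_cpt, mul_one, mul_one, p0] at k3
    rw [mul_one] at k
    nlinarith

theorem uc_Pi0 {P : Type} {h K : P → X3 → M3} {χ : X3 → ℝ} {Λ c : ℝ} (hχ : Prof χ Λ) (hc : 0 < c)
    (D : ∀ r, PD (h r) (K r)) (lo : ∀ r, ∀ y ∈ cube, Lo c (h r y))
    (bd : ∀ m, ∃ C, ∀ r a b, ∀ y ∈ cube, Bd m (fun z => h r z a b) y C) (a b : Fin 3) :
    UC (Metric.closedBall 0 3) fun r y => Pi0 (h r y) (χ y) a b := by
  have z : ∀ r y, y ∉ Metric.closedBall (0 : X3) 3 → Pi0 (h r y) (χ y) a b = 0 := fun r y hy => by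
    simp [Pi0, hχ.zero y hy]
  refine ⟨⟨fun r => fun_sm (sm_Pi0 a b) (D r) hχ.sm, fun k => ?_⟩, z⟩
  obtain ⟨C1, h1⟩ := bd k
  obtain ⟨C2, -, h2⟩ := P354JP.bd_compact k (isCompact_closedBall (0 : X3) 3) hχ.sm
  obtain ⟨C, h0, hC⟩ := fun_bd (sm_Pi0 a b) hc (max C1 C2) k
  refine ⟨C, fun r α hα y => ?_⟩
  by_cases hy : y ∈ Metric.closedBall (0 : X3) 3
  · exact hC (k := n0 α) (D r) hχ.sm (lo r y (ball_cube hy))
      (fun a b β hβ _ => (h1 r a b y (ball_cube hy) β hβ).trans (le_max_left _ _))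
      (fun β hβ _ => (h2 y hy β hβ).trans (le_max_right _ _)) α hα le_rfl
  · rw [P354K.pdl_supp α Metric.isClosed_closedBall (z r) y hy, norm_zero]
    exact h0

theorem pow_div_le {C l : ℝ} (hC : 0 ≤ C) (hl : 1 ≤ l) {n k : ℕ} (M : ℕ) (h : n ≤ k) :
    C * l ^ n / l ^ (M + k) ≤ C * (l ^ M)⁻¹ := by
  have h0 : 0 < l := one_pos.trans_le hl
  rw [div_le_iff₀ (by positivity), pow_add, mul_assoc, inv_mul_cancel_left₀ (by positivity)]
  exact mul_le_mul_of_nonneg_left (pow_le_pow_right₀ hl h) hC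

theorem chart (hC : COREK) {χ0 : X3 → ℝ} {Λ : ℝ} (hχ : Prof χ0 Λ) (b : Bool) {P : Type}
    (l : Filter P) {h K : P → X3 → M3} {hs Ks T : X3 → M3} {χ : X3 → ℝ} {K1 : Set X3}
    {lam : P → ℝ} (m : ℕ) {c : ℝ} (hc : 0 < c) (D : ∀ r, PD (h r) (K r))
    (cc : ∀ r y, CC (h r) (K r) y)
    (bd : ∀ m, ∃ C, ∀ r a b, ∀ y ∈ cube,
      Bd m (fun z => h r z a b) y C ∧ Bd m (fun z => K r z a b) y C)
    (lo : ∀ r, ∀ y ∈ cube, Lo c (h r y)) (Ds : PD hs Ks) (k1 : IsCompact K1) (k2 : K1 ⊆ cube)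
    (W : Wit pd K1 (jet hs fun z => piOf (hs z) (Ks z)) (jet 0 T) χ)
    (cv : ∀ η > 0, ∀ᶠ r in l, ∀ a b, ∀ y ∈ cube,
      Bd 2 (fun z => h r z a b - hs z a b) y η ∧ Bd 2 (fun z => K r z a b - Ks z a b) y η)
    (l1 : ∀ r, 1 ≤ lam r) (l2 : Tendsto lam l atTop) :
    ∃ (M : ℕ) (C : ℝ), ∀ᶠ r in l, ∃ h' K', Res b (8 * Λ + 1) (lam r) ((lam r ^ M)⁻¹ * lam r / 8)
      (C / lam r) m K1 (h r) (K r) h' K' := by
  obtain ⟨M, C, H⟩ := hC P l h K hs Ks T χ _ K1 (fun r y => Pi0 (h r y) (χ0 y)) lam (max m 6) D cc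
    (fun α => (bd α.length).imp fun C h r a b y hy =>
      ⟨(h r a b y hy).1 α le_rfl, (h r a b y hy).2 α le_rfl⟩) ⟨c, hc, lo⟩ Ds
    (isCompact_closedBall 0 3) k1 ball_cube k2 W
    (fun η hη => (cv η hη).mono fun r h α hα a b y hy =>
      ⟨(h a b y (k2 hy)).1 α hα, (h a b y (k2 hy)).2 α hα⟩)
    (uc_Pi0 hχ hc D lo fun m => (bd m).imp fun C h r a b y hy => (h r a b y hy).1)
    (fun r y => Pi0_symm _ _) (fun r y b => Pi0_zero _ _ b) l1 l2
  obtain ⟨C6, h6⟩ := bd 6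
  obtain ⟨C', c1, c2⟩ : ∃ C', C ≤ C' ∧ 1 ≤ C' := ⟨max C 1, le_max_left _ _, le_max_right _ _⟩
  obtain ⟨B, b1, b2, b3⟩ : ∃ B, C6 ≤ B ∧ C' ≤ B ∧ Λ ≤ B := ⟨max C6 (max C' Λ), le_max_left _ _,
    le_max_of_le_right (le_max_left _ _), le_max_of_le_right (le_max_right _ _)⟩
  obtain ⟨C1, h1, hC1⟩ := loc (half_pos hc) B
  refine ⟨M, C, ?_⟩
  filter_upwards [H, l2.eventually_ge_atTop (8 * (C1 * C')), l2.eventually_ge_atTop (6 * C' / c)]
    with r ⟨h', K', D', cc', supp, E⟩ r1 r2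
  have l0 : 0 < lam r := one_pos.trans_le (l1 r)
  have e0 : 0 < (lam r ^ M)⁻¹ := by positivity
  have e1 : (lam r ^ M)⁻¹ ≤ 1 := inv_le_one_of_one_le₀ (one_le_pow₀ (l1 r))
  have d1 : C / lam r ≤ C' / lam r := div_le_div_of_nonneg_right c1 l0.le
  have d2 : C' / lam r ≤ B := (div_le_self (by linarith) (l1 r)).trans b2
  have C0 : 0 ≤ C := by
    have := (abs_nonneg _).trans (E [] (Nat.zero_le _) 0 0 0).1
    exact (div_nonneg_iff.1 this).elim (·.1) fun k => absurd k.2 (not_le.2 l0)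
  refine ⟨h', K', res_of hχ (D r) D' cc' supp (fun α hα y i j =>
    ⟨(E α (le_max_of_le_left hα) y i j).1, (E α (le_max_of_le_left hα) y i j).2.1⟩)
    (by positivity) (η := C1 * (C' * (lam r ^ M)⁻¹)) (by nlinarith) fun y hy hy' => ?_⟩
  have lo' : Lo (c / 2) (h r y + h' y) := by
    refine ((lo r y hy).add fun a b => ((E [] (Nat.zero_le _) y a b).1.trans d1)).mono ?_
    rw [div_le_iff₀ hc] at r2
    have : C' / lam r ≤ c / 6 := by
      rw [div_le_iff₀ l0]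
      linarith
    linarith
  refine hC1 (D r) D' hχ.sm ((lo r y hy).mono (half_le_self hc.le)) lo'
    ((abs_of_pos e0).le.trans (le_mul_of_one_le_left e0.le c2))
    ((mul_le_of_le_one_right (by linarith) e1).trans b2) ((hχ.bd y).mono le_rfl le_rfl b3)
    fun a b => ⟨fun α k _ => ((h6 r a b y hy).1 α k).trans b1,
      fun α k _ => ((h6 r a b y hy).2 α k).trans b1,
      fun α k _ => (E α (le_max_of_le_right k) y a b).1.trans (d1.trans d2),
      fun α k _ => (E α (le_max_of_le_right k) y a b).2.1.trans (d1.trans d2),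
      fun α k k' => ((E α (le_max_of_le_right k) y a b).2.2 hy').1.trans
        ((pow_div_le C0 (l1 r) M k').trans (mul_le_mul_of_nonneg_right c1 e0.le)),
      fun α k k' => ?_⟩
  have := ((E α (le_max_of_le_right (by omega)) y a b).2.2 hy').2.trans
    ((pow_div_le C0 (l1 r) M k').trans (mul_le_mul_of_nonneg_right c1 e0.le))
  refine le_trans (le_of_eq ?_) this
  rw [Real.norm_eq_abs]
  congr 2
  funext z
  rw [cs]
  ring

end Vale.Agent.P354KK
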