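import Vale.Agent.P354KU.Push
import Vale.Agent.P354J.Pull
import Vale.Agent.P354I.Defs2

open scoped ContDiff
open Set Filter Topology Matrix Metric

noncomputable section

namespace Vale.Agent.P354KK

open Vale.Agent.P354H (X3 pdl)
open Vale.Agent.P354J (PD CC MS pb sl2)
open Vale.Agent.P354JK Vale.Agent.P354IK Vale.Agent.P354KU
open Vale.Agent.P354I (Dat IsDat wn)
open Vale.Agent.P354K (M3 cube)
open Vale.Agent.P354T (DSm)

/-- PUSH for data asymptotic to any smooth reference k. -/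
theorem push2 (s : ℝ) (m : ℕ) (hs : 0 ≤ s) : ∃ C : ℝ, 0 ≤ C ∧ ∀ (k : Dat) (σ : Bool) (d : Dat)
    (h' K' : X3 → M3) (R c : ℝ), DSm k → IsDat k s d → PD (pb σ d.h + h') (pb σ d.K + K') →
    (∀ y, CC (pb σ d.h + h') (pb σ d.K + K') y) →
    (∀ y : X3, y - (R, 0, 0) ∉ cube → h' y = 0 ∧ K' y = 0) →
    (∀ α : List (Fin 3), α.length ≤ m → ∀ y i j,
      |pdl α (fun z => h' z i j) y| ≤ c ∧ |pdl α (fun z => K' z i j) y| ≤ c) →
    ∃ d', IsDat k s d' ∧ pb σ d'.h = pb σ d.h + h' ∧ pb σ d'.K = pb σ d.K + K' ∧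
      P354I.pm s m d' d ≤ ENNReal.ofReal (C * c * (1 + |R|) ^ s) := by
  obtain ⟨C, h0, hC⟩ := pf_bd s m hs
  refine ⟨18 * C, by positivity, fun k0 σ d h' K' R c hk hd hP hc h1 h2 => ?_⟩
  have hd0 := (sl2 d σ ⟨hd.smooth, hd.pos⟩).1
  have sh : MS h' := fun i j => by simpa using (hP.sh i j).sub (hd0.sh i j)
  have sK : MS K' := fun i j => by simpa using (hP.sK i j).sub (hd0.sK i j)
  have z1 := fun z hz => (h1 z hz).1
  have z2 := fun z hz => (h1 z hz).2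
  let d' : Dat := ⟨d.h + pf σ h', d.K + pf σ K'⟩
  have e1 : pb σ d'.h = pb σ d.h + h' := by rw [pb_add, pb_pf]
  have e2 : pb σ d'.K = pb σ d.K + K' := by rw [pb_add, pb_pf]
  have sm : DSm d' := fun i j => ⟨(hd.smooth i j).1.add (pf_sm sh z1 i j).contDiffOn,
    (hd.smooth i j).2.add (pf_sm sK z2 i j).contDiffOn⟩
  have lo : ∀ y, den σ y = 0 → d'.h =ᶠ[𝓝 y] d.h ∧ d'.K =ᶠ[𝓝 y] d.K := fun y hy =>
    ⟨(pf_zero z1 fun h => kk_sub σ R h hy).mono fun z hz => by simp [d', hz],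
      (pf_zero z2 fun h => kk_sub σ R h hy).mono fun z hz => by simp [d', hz]⟩
  have po : ∀ y ≠ 0, (d'.h y).PosDef ∧ (d'.K y).IsSymm := fun y hy => by
    by_cases h : den σ y = 0
    · rw [(lo y h).1.eq_of_nhds, (lo y h).2.eq_of_nhds]
      exact hd.pos y hy
    rw [← pf_pb h d'.h, ← pf_pb h d'.K, e1, e2]
    refine ⟨(hP.pos _).1.mul_mul_conjTranspose_same (vecMul_injective_iff_isUnit.2
      (IsUnit.of_mul_eq_one _ (nm_jm h))), ?_⟩
    rw [pf, IsSymm, transpose_mul, transpose_mul, transpose_transpose, (hP.pos _).2,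
      Matrix.mul_assoc]
  have co : ∀ y ≠ 0, d'.scal y + d'.trK y ^ 2 - d'.sqK y = 0 ∧
      ∀ j, d'.divK j y - P354I.pd j d'.trK y = 0 := fun y hy => by
    by_cases h : den σ y = 0
    · obtain ⟨a1, a2, a3, a4⟩ := loc (lo y h).1 (lo y h).2
      rw [a1, a2.eq_of_nhds, a3]
      exact ⟨hd.hamilton y hy, fun j => by
        rw [a4, P354I.pd, a2.fderiv_eq]; exact hd.momentum y hy j⟩
    · rw [← phi_psi σ hy h]
      exact ((sl2 d' σ ⟨sm, po⟩).2 _).1 (e1 ▸ e2 ▸ hc _)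
  have key : ∀ {m : ℕ} {η : ℝ}, 0 ≤ η → (∀ i j, wn s m (fun y => pf σ h' y i j) ≤ ENNReal.ofReal η ∧
      wn s m (fun y => pf σ K' y i j) ≤ ENNReal.ofReal η) →
      P354I.pm s m d' d ≤ ENNReal.ofReal (18 * η) := fun hη h =>
    P354T.pm_le_of hη fun i j => by simpa [d'] using h i j
  have hc0 : 0 ≤ c := (abs_nonneg _).trans (h2 [] (Nat.zero_le _) 0 0 0).1
  refine ⟨d', ⟨sm, po, fun k => ?_, fun y hy => (co y hy).1, fun y hy => (co y hy).2⟩, e1, e2, ?_⟩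
  · obtain ⟨D, hD0, hD⟩ := pf_bd s k hs
    obtain ⟨c1, b1⟩ := all_bd sh z1 k
    obtain ⟨c2, b2⟩ := all_bd sK z2 k
    refine (P354T.pm_tri s k sm hd.smooth hk).trans_lt (ENNReal.add_lt_top.2
      ⟨(key (η := D * max 0 (max c1 c2) * (1 + |R|) ^ s) (by positivity) fun i j =>
        ⟨hD σ h' R _ sh z1 (fun α hα y i j => (b1 α hα y i j).trans (by simp)) i j,
          hD σ K' R _ sK z2 (fun α hα y i j => (b2 α hα y i j).trans (by simp)) i j⟩).trans_lt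
        ENNReal.ofReal_lt_top, hd.finite k⟩)
  · rw [mul_assoc, mul_assoc, ← mul_assoc C]
    exact key (by positivity) fun i j => ⟨hC σ h' R c sh z1 (fun α hα y i j => (h2 α hα y i j).1) i j,
      hC σ K' R c sK z2 (fun α hα y i j => (h2 α hα y i j).2) i j⟩

end Vale.Agent.P354KK
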