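import Vale.Agent.P354KK.Main
import Vale.Agent.P354KK.Push2
import Vale.Agent.P354K.Fin
import Vale.Agent.P354I.Core2

open scoped ContDiff
open MeasureTheory Set Filter Topology Matrix

noncomputable section

namespace Vale.Agent.P354KK

open Vale.Agent.P354H (X3 pd pdl tr pd_tr pdl_tr)
open Vale.Agent.P354J
open Vale.Agent.P354K (cube COREK Wit jet piOf)
open Vale.Agent.P354KC (Lo)
open Vale.Agent.P354D (sgn cpt IsKick)
open Vale.Agent.P354I (Dat pm mix KICK2 Sta Wi)
open Vale.Agent.P354T (DSm)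

theorem far2 (hC : COREK) {χ0 : X3 → ℝ} {Λ : ℝ} (hχ : Prof χ0 Λ) (b : Bool)
    {F K hs Ks T : X3 → M3} {χ : X3 → ℝ} {K1 : Set X3} {s : ℝ} (s0 : 0 < s) (D : PD F K)
    (cc : ∀ y, CC F K y) (Ds : PD hs Ks)
    (st : ∀ x y, hs (x, y) = hs (0, y) ∧ Ks (x, y) = Ks (0, y))
    (dif : ∀ m, ∃ C, 0 ≤ C ∧ ∀ z : X3, ‖z.2‖ ≤ 4 → 2 ≤ sgn b * z.1 → ∀ a b,
      Bd m (fun w => F w a b - hs w a b) z (C * wt s z) ∧
        Bd m (fun w => K w a b - Ks w a b) z (C * wt s z))
    (k1 : IsCompact K1) (k2 : K1 ⊆ cube)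
    (W : Wit pd K1 (jet hs fun z => piOf (hs z) (Ks z)) (jet 0 T) χ) (m : ℕ) :
    ∃ (M : ℕ) (C : ℝ), ∀ᶠ u in atTop, ∃ h' K', Res b (8 * Λ + 1) (u ^ (s + 1))
      (((u ^ (s + 1)) ^ M)⁻¹ * u ^ (s + 1) / 8) (C / u ^ (s + 1)) m K1
        (tr (ctr b u) F) (tr (ctr b u) K) h' K' := by
  have hB := isCompact_closedBall (0 : X3) 4
  have d2 : ∀ m, ∃ C, 0 ≤ C ∧ ∀ u, 7 ≤ u → ∀ a c, ∀ y ∈ cube,
      Bd m (fun z => tr (ctr b u) F z a c - hs z a c) y (C * wt s (y + ctr b u)) ∧
        Bd m (fun z => tr (ctr b u) K z a c - Ks z a c) y (C * wt s (y + ctr b u)) := fun m => by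
    obtain ⟨C, h0, h⟩ := dif m
    refine ⟨C, h0, fun u hu a c y hy => ?_⟩
    have k := h (y + ctr b u) (by
      rw [show (y + ctr b u).2 = y.2 by simp [ctr]]
      exact (norm_snd_le y).trans (mem_closedBall_zero_iff.1 (cube_ball hy))) (by
        have k : |y.1| < Real.pi := hy 0
        rw [← abs_sgn b, abs_lt] at k
        rw [Prod.fst_add, mul_add, ctr, sgn_mul]
        linarith [Real.pi_lt_four]) a c
    exact ⟨bd_tr (fun x y => by rw [(st x y).1]) k.1, bd_tr (fun x y => by rw [(st x y).2]) k.2⟩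
  have cv : ∀ m, ∀ η > 0, ∀ᶠ u in atTop, ∀ a c, ∀ y ∈ cube,
      Bd m (fun z => tr (ctr b u) F z a c - hs z a c) y η ∧
        Bd m (fun z => tr (ctr b u) K z a c - Ks z a c) y η := fun m η hη => by
    obtain ⟨C, h0, h⟩ := d2 m
    have t := ((tendsto_rpow_neg_atTop s0).comp
      (tendsto_atTop_add_const_right _ (-5) tendsto_id)).const_mul C
    rw [mul_zero] at t
    filter_upwards [t.eventually_le_const hη, eventually_ge_atTop 7] with u h1 h2 a c y hy
    have k := (mul_le_mul_of_nonneg_left (wt_far (u := u) s0.le b hy (by linarith)) h0).trans h1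
    exact ⟨(h u h2 a c y hy).1.mono le_rfl k, (h u h2 a c y hy).2.mono le_rfl k⟩
  obtain ⟨c, c0, lo⟩ := unif_pos hB Ds.sh fun z => (Ds.pos z).1
  obtain ⟨u1, h1⟩ := eventually_atTop.1 (cv 0 (c / 6) (by positivity))
  have t : Tendsto (fun u : ℝ => max u (max u1 7)) atTop atTop :=
    tendsto_atTop_mono (fun u => le_max_left _ _) tendsto_id
  have t7 : ∀ u : ℝ, 7 ≤ max u (max u1 7) := fun u => le_max_of_le_right (le_max_right _ _)
  obtain ⟨M, C, H⟩ := chart hC hχ b atTop (h := fun u => tr (ctr b (max u (max u1 7))) F)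
    (K := fun u => tr (ctr b (max u (max u1 7))) K) (lam := fun u => max u (max u1 7) ^ (s + 1))
    m (half_pos c0) (fun u => PD_tr D _) (fun u y => (CC_tr _ _ _ _).2 (cc _)) (fun m => by
      obtain ⟨C, h0, h⟩ := d2 m
      choose B1 _ b1 using fun t : Fin 3 × Fin 3 => P354JP.bd_compact m hB (Ds.sh t.1 t.2)
      choose B2 _ b2 using fun t : Fin 3 × Fin 3 => P354JP.bd_compact m hB (Ds.sK t.1 t.2)
      obtain ⟨C1, c1⟩ := (finite_range B1).bddAbove
      obtain ⟨C2, c2⟩ := (finite_range B2).bddAbove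
      refine ⟨C + max C1 C2, fun u a c y hy => ?_⟩
      have w := mul_le_of_le_one_right h0 (wt_le_one s0.le (y + ctr b (max u (max u1 7))))
      exact ⟨(bd_of ((PD_tr D _).sh a c) (Ds.sh a c) (h _ (t7 u) a c y hy).1
        (b1 (a, c) y (cube_ball hy))).mono le_rfl
          (add_le_add w (le_max_of_le_left (c1 (mem_range_self _)))),
        (bd_of ((PD_tr D _).sK a c) (Ds.sK a c) (h _ (t7 u) a c y hy).2
          (b2 (a, c) y (cube_ball hy))).mono le_rfl
            (add_le_add w (le_max_of_le_right (c2 (mem_range_self _))))⟩)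
    (fun u y hy => by
      have := (Lo.add (G := hs y) (H := tr (ctr b (max u (max u1 7))) F y - hs y)
        (lo y (cube_ball hy)) fun a c =>
          (h1 _ (le_max_of_le_right (le_max_left _ _)) a c y hy).1.zero).mono
            (c' := c / 2) (by linarith)
      rwa [add_sub_cancel] at this) Ds k1 k2 W (fun η hη => t.eventually (cv 2 η hη))
    (fun u => Real.one_le_rpow (by linarith [t7 u]) (by linarith))
    ((tendsto_rpow_atTop (by linarith)).comp t)
  refine ⟨M, C, ?_⟩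
  filter_upwards [H, eventually_ge_atTop (max u1 7)] with u h hu
  rwa [max_eq_left hu] at h

theorem mix_sm {k k' : Dat} (D : DSm k) (D' : DSm k') : DSm (mix k k') := fun i j => by
  have s : ContDiffOn ℝ ∞ (fun y : P354I.X => Real.smoothTransition (Real.log ‖y‖)) {0}ᶜ :=
    Real.smoothTransition.contDiff.comp_contDiffOn fun y hy =>
      ((contDiffAt_norm ℝ hy).log (norm_ne_zero_iff.2 hy)).contDiffWithinAt
  exact ⟨(s.mul (D i j).1).add ((contDiffOn_const.sub s).mul (D' i j).1),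
    (s.mul (D i j).2).add ((contDiffOn_const.sub s).mul (D' i j).2)⟩

theorem mix_far (k k' : Dat) (σ b : Bool) {z : X3} (hz : 1 < sgn b * z.1) :
    pb σ (mix k k').h z = pb σ (bif b then k else k').h z ∧
      pb σ (mix k k').K z = pb σ (bif b then k else k').K z := by
  simp only [pb, mix, P354JK.norm_phi, Real.log_exp]
  cases b
  · rw [Real.smoothTransition.zero_of_nonpos (by simp only [sgn, cond] at hz; linarith)]
    simp
  · rw [Real.smoothTransition.one_of_one_le (by simp only [sgn, cond] at hz; linarith)]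
    simp

theorem dif_mix {s : ℝ} {d k k' : Dat} (D : DSm d) (D' : DSm (mix k k'))
    (fin : ∀ m, pm s m d (mix k k') < ⊤) (σ b : Bool) (m : ℕ) :
    ∃ C, 0 ≤ C ∧ ∀ z : X3, ‖z.2‖ ≤ 4 → 2 ≤ sgn b * z.1 → ∀ i j,
      Bd m (fun w => pb σ d.h w i j - pb σ (bif b then k else k').h w i j) z (C * wt s z) ∧
        Bd m (fun w => pb σ d.K w i j - pb σ (bif b then k else k').K w i j) z (C * wt s z) := by
  obtain ⟨C, h0, hP⟩ := P354JP.pbe m 4
  have e := (ENNReal.ofReal_toReal (fin m).ne).ge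
  refine ⟨C * (pm s m d (mix k k')).toReal, by positivity, fun z hz hb a c => ?_⟩
  have h1 := hP s _ (fun y => d.h y - (mix k k').h y) ENNReal.toReal_nonneg (fun i j =>
    ⟨(D i j).1.sub (D' i j).1, (wn_le_pm s _ d _ i j).1.trans e⟩) σ z hz a c
  have h2 := hP s _ (fun y => d.K y - (mix k k').K y) ENNReal.toReal_nonneg (fun i j =>
    ⟨(D i j).2.sub (D' i j).2, (wn_le_pm s _ d _ i j).2.trans e⟩) σ z hz a c
  simp only [pb_sub] at h1 h2
  have ev : ∀ᶠ w : X3 in 𝓝 z, 1 < sgn b * w.1 :=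
    (continuous_const.mul continuous_fst).continuousAt.eventually_const_lt
      (one_lt_two.trans_le hb)
  exact ⟨fun α hα => (congrArg norm (P354IN.pdl_ev α (ev.mono fun w hw => by
      simp only [← (mix_far k k' σ b hw).1, Matrix.sub_apply]))).trans_le (h1 α hα),
    fun α hα => (congrArg norm (P354IN.pdl_ev α (ev.mono fun w hw => by
      simp only [← (mix_far k k' σ b hw).2, Matrix.sub_apply]))).trans_le (h2 α hα)⟩

/-- **KICK2.** -/
theorem kick2 : KICK2 := by
  obtain ⟨χ0, Λ, hχ⟩ := ex_prof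
  refine ⟨8 * Λ + 1, fun s κ k k' hs hκ S S' w w' d hd σ b m ε R0 hε => ?_⟩
  have S0 : Sta (bif b then k else k') := by cases b <;> assumption
  have w0 : Wi (bif b then k else k') := by cases b <;> assumption
  have Dd : PDy d := ⟨hd.smooth, hd.pos⟩
  have Dm := mix_sm S.1.1 S'.1.1
  obtain ⟨K1, T, χ, k1, k2, k3, W⟩ := w0 σ b
  obtain ⟨N, C, H⟩ := far2 P354K.corek hχ b (one_pos.trans hs) (Dd.toPD σ)
    (fun y => ((sl2 d σ Dd).2 y).2 ⟨hd.hamilton _ (phi_ne σ y), hd.momentum _ (phi_ne σ y)⟩)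
    (S0.1.toPD σ) (S0.2 σ) (dif_mix hd.smooth Dm hd.finite σ b) k1 k2 W m
  obtain ⟨Cp, -, hP⟩ := push2 s m (by linarith)
  have t := tendsto_inv_atTop_zero.const_mul (Cp * C)
  rw [mul_zero] at t
  obtain ⟨u, ⟨h', K', R⟩, u1, u2, u3, u4⟩ := (H.and ((exp_le (q := (s + 1) * N) hκ).and
    ((t.eventually_lt_const hε).and ((eventually_ge_atTop (R0 + 2)).and
      (eventually_ge_atTop 5))))).exists
  have u0 : 0 < u := by linarith
  have l5 : u ≤ u ^ (s + 1) := Real.self_le_rpow_of_one_le (by linarith) (by linarith)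
  obtain ⟨d', p1, p2, p3, p4⟩ := hP _ σ d (tr (-ctr b u) h') (tr (-ctr b u) K')
    (sgn b * (u - 1)) _ Dm hd (tr_add' _ _ h' ▸ tr_add' _ _ K' ▸ PD_tr R.pd _)
    (fun y => tr_add' _ _ h' ▸ tr_add' _ _ K' ▸ (CC_tr _ _ _ _).2 (R.cc _))
    (fun y hy => R.supp _ (by rwa [← sub_eq_add_neg])) fun α hα y i j => by
      rw [show (fun z => tr (-ctr b u) h' z i j) = tr (-ctr b u) fun z => h' z i j from rfl,
        show (fun z => tr (-ctr b u) K' z i j) = tr (-ctr b u) fun z => K' z i j from rfl,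
        pdl_tr, pdl_tr]
      exact R.small α hα _ i j
  refine ⟨u - 2, by linarith, _, ?_, d', p1, p4.trans_lt ((ENNReal.ofReal_lt_ofReal_iff hε).2
    (lt_of_eq_of_lt ?_ u2)), by
      rw [Ud, Ud, p2, p3]
      exact kick_of R k3 (u4.trans l5)⟩
  · rw [Real.rpow_mul_natCast u0.le] at u1
    have p : 0 < (u ^ (s + 1)) ^ N := by positivity
    rw [ge_iff_le, le_div_iff₀ (by norm_num), le_inv_mul_iff₀ p]
    linarith
  · rw [abs_sgn, abs_of_pos (by linarith), add_sub_cancel, Real.rpow_add_one u0.ne']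
    field_simp

end Vale.Agent.P354KK
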