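import Vale.Agent.P354J.Tame2
import Vale.Agent.P354K.Unif

open scoped ContDiff
open Set Filter Topology

namespace Vale.Agent.P354KK

open Vale.Agent.P354H (X3 pd pdl)
open Vale.Agent.P354J (sm_pd pd_sub pdl_pair pd_comp pdl_sub)
open Vale.Agent.P354K (n0)

/-- The number of x-derivatives in the letter j. -/
def dl (j : Fin 3) : ℕ := if j = 0 then 1 else 0

theorem n0_cons (j : Fin 3) (α : List (Fin 3)) : n0 (j :: α) = n0 α + dl j := by
  simp [n0, dl, List.count_cons]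

theorem dl_le (j : Fin 3) : dl j ≤ 1 := by
  unfold dl
  split_ifs <;> simp

section
variable {V W : Type} [NormedAddCommGroup V] [NormedSpace ℝ V] [NormedAddCommGroup W]
  [NormedSpace ℝ W] {k k' m m' : ℕ} {f g : X3 → V} {x : X3} {c c' B B' ε ε' : ℝ}

/-- Bounds at x for the words of length at most m with at most k letters 0. -/
def Ba (k m : ℕ) (f : X3 → V) (x : X3) (c : ℝ) : Prop :=
  ∀ α : List (Fin 3), α.length ≤ m → n0 α ≤ k → ‖pdl α f x‖ ≤ c

theorem Ba.mono (h : Ba k m f x c) (hk : k' ≤ k) (hm : m' ≤ m) (hc : c ≤ c') : Ba k' m' f x c' :=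
  fun α h1 h2 => (h α (h1.trans hm) (h2.trans hk)).trans hc

theorem Ba.zero (h : Ba k m f x c) : ‖f x‖ ≤ c := h [] (Nat.zero_le _) (Nat.zero_le _)

theorem Ba.nonneg (h : Ba k m f x c) : 0 ≤ c := (norm_nonneg _).trans h.zero

theorem Ba.pd {j : Fin 3} (h : Ba (k + dl j) (m + 1) f x c) : Ba k m (pd j f) x c :=
  fun α h1 h2 => h (j :: α) (by simpa using h1) (by rw [n0_cons]; omega)

theorem Ba.succ (h0 : ‖f x‖ ≤ c) (h : ∀ j k', k' + dl j = k → Ba k' m (P354H.pd j f) x c) :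
    Ba k (m + 1) f x c := by
  intro α h1 h2
  cases α with
  | nil => exact h0
  | cons j α =>
    rw [n0_cons] at h2
    exact h j (k - dl j) (by omega) α (by simpa using h1) (by omega)

theorem Ba.pair {g : X3 → W} (hf : ContDiff ℝ ∞ f) (hg : ContDiff ℝ ∞ g) (h : Ba k m f x c)
    (h' : Ba k m g x c) : Ba k m (fun y => (f y, g y)) x c := by
  intro α h1 h2
  rw [pdl_pair hf hg, Prod.norm_def]
  exact max_le (h α h1 h2) (h' α h1 h2)

theorem Ba.add (hf : ContDiff ℝ ∞ f) (hg : ContDiff ℝ ∞ g) (h : Ba k m f x c)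
    (h' : Ba k m g x c') : Ba k m (fun y => f y + g y) x (c + c') := fun α h1 h2 => by
  rw [show pdl α (fun y => f y + g y) = _ from P354H.pdl_add α hf hg]
  exact (norm_add_le _ _).trans (add_le_add (h α h1 h2) (h' α h1 h2))

theorem Ba.sub (hf : ContDiff ℝ ∞ f) (hg : ContDiff ℝ ∞ g) (h : Ba k m f x c)
    (h' : Ba k m g x c') : Ba k m (fun y => f y - g y) x (c + c') := fun α h1 h2 => by
  rw [pdl_sub hf hg]
  exact (norm_sub_le _ _).trans (add_le_add (h α h1 h2) (h' α h1 h2))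

theorem ba_const (v : V) : Ba k m (fun _ => v) x ‖v‖ := by
  intro α _ _
  cases α with
  | nil => exact le_rfl
  | cons j α =>
    show ‖pdl α (P354H.pd j fun _ => v) x‖ ≤ _
    rw [show P354H.pd j (fun _ : X3 => v) = 0 by funext y; simp [P354H.pd], P354H.pdl_zero]
    simp

theorem Ba.pi {ι : Type} [Fintype ι] {f : X3 → ι → V} (hf : ∀ i, ContDiff ℝ ∞ fun y => f y i)
    (hc : 0 ≤ c) (h : ∀ i, Ba k m (fun y => f y i) x c) : Ba k m f x c := fun α h1 h2 => by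
  refine (pi_norm_le_iff_of_nonneg hc).2 fun i => ?_
  have e := congrFun (P354J.pdl_clm (ContinuousLinearMap.proj (R := ℝ) (φ := fun _ : ι => V) i)
    (contDiff_pi.2 hf) α) x
  exact (congrArg norm e).symm.le.trans (h i α h1 h2)

theorem ex_ba (m : ℕ) (f : X3 → V) (x : X3) : ∃ c, ∀ k, Ba k m f x c := by
  obtain ⟨C, hC⟩ := P354K.words_bound (F := fun α C => ‖pdl α f x‖ ≤ C)
    (fun α a b hab h => h.trans hab) (fun α => ⟨_, le_rfl⟩) m
  exact ⟨C, fun k α h _ => hC α h⟩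

/-- The smooth functions f and g are bounded by B at x and their difference by ε. -/
structure An (k m : ℕ) (B ε : ℝ) (x : X3) (f g : X3 → V) : Prop where
  sf : ContDiff ℝ ∞ f
  sg : ContDiff ℝ ∞ g
  bf : Ba k m f x B
  bg : Ba k m g x B
  bd : Ba k m (fun y => f y - g y) x ε

theorem An.mono (h : An k m B ε x f g) (hk : k' ≤ k) (hm : m' ≤ m) (hB : B ≤ B') (hε : ε ≤ ε') :
    An k' m' B' ε' x f g :=
  ⟨h.sf, h.sg, h.bf.mono hk hm hB, h.bg.mono hk hm hB, h.bd.mono hk hm hε⟩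

theorem An.pd {j : Fin 3} (h : An (k + dl j) (m + 1) B ε x f g) :
    An k m B ε x (pd j f) (pd j g) := by
  refine ⟨sm_pd h.sf j, sm_pd h.sg j, h.bf.pd, h.bg.pd, ?_⟩
  have := h.bd.pd
  rwa [pd_sub h.sf h.sg] at this

theorem An.pair {f' g' : X3 → W} (h : An k m B ε x f g) (h' : An k m B ε x f' g') :
    An k m B ε x (fun y => (f y, f' y)) (fun y => (g y, g' y)) :=
  ⟨h.sf.prodMk h'.sf, h.sg.prodMk h'.sg, Ba.pair h.sf h'.sf h.bf h'.bf,
    Ba.pair h.sg h'.sg h.bg h'.bg, Ba.pair (h.sf.sub h.sg) (h'.sf.sub h'.sg) h.bd h'.bd⟩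

theorem An.pi {ι : Type} [Fintype ι] {f g : X3 → ι → V} (hB : 0 ≤ B) (hε : 0 ≤ ε)
    (h : ∀ i, An k m B ε x (fun y => f y i) fun y => g y i) : An k m B ε x f g :=
  ⟨contDiff_pi.2 fun i => (h i).sf, contDiff_pi.2 fun i => (h i).sg,
    Ba.pi (fun i => (h i).sf) hB fun i => (h i).bf, Ba.pi (fun i => (h i).sg) hB fun i => (h i).bg,
    Ba.pi (fun i => (h i).sf.sub (h i).sg) hε fun i => (h i).bd⟩

theorem an_self (hf : ContDiff ℝ ∞ f) (h : Ba k m f x B) (hε : 0 ≤ ε) : An k m B ε x f f :=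
  ⟨hf, hf, h, h, by simpa using (ba_const (0 : V)).mono le_rfl le_rfl (by simpa using hε)⟩

end

/-- Composition with a smooth map. -/
theorem An.comp (m : ℕ) : ∀ (V W : Type) [NormedAddCommGroup V] [NormedSpace ℝ V]
    [FiniteDimensional ℝ V] [NormedAddCommGroup W] [NormedSpace ℝ W] (F : V → W) (O Q : Set V)
    (B : ℝ), IsOpen O → ContDiffOn ℝ ∞ F O → Q ⊆ O → IsCompact Q → Convex ℝ Q →
    ∃ C, 0 ≤ C ∧ ∀ k ε x (f g : X3 → V), An k m B ε x f g → (∀ y, f y ∈ O) → (∀ y, g y ∈ O) →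
      f x ∈ Q → g x ∈ Q → An k m C (C * ε) x (fun y => F (f y)) (fun y => F (g y)) := by
  induction m with
  | zero =>
    intro V W _ _ _ _ _ F O Q B hO hF hQ hc hv
    obtain ⟨C, hC0, hC⟩ := P354J.Tm.comp 0 V W F O Q B hO hF hQ hc hv
    refine ⟨C, hC0, fun k ε x f g h hf hg hfx hgx => ?_⟩
    have z : ∀ {U : Type} [NormedAddCommGroup U] [NormedSpace ℝ U] {f : X3 → U} {c : ℝ},
        Ba k 0 f x c ↔ P354J.Bd 0 f x c := fun {U _ _ f c} =>
      ⟨fun h α hα => h α hα (by rw [List.length_eq_zero_iff.1 (Nat.le_zero.1 hα)]; simp [n0]),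
        fun h α hα _ => h α hα⟩
    have := hC ε x f g ⟨h.sf, h.sg, z.1 h.bf, z.1 h.bg, z.1 h.bd⟩ hf hg hfx hgx
    exact ⟨this.sf, this.sg, z.2 this.bf, z.2 this.bg, z.2 this.bd⟩
  | succ m ih =>
    intro V W _ _ _ _ _ F O Q B hO hF hQ hc hv
    obtain ⟨C, hC0, hC⟩ := P354J.Tm.comp 0 V W F O Q B hO hF hQ hc hv
    have hH : ContDiffOn ℝ ∞ (fun p : V × V => fderiv ℝ F p.1 p.2) (O ×ˢ univ) := by
      refine ContDiffOn.clm_apply ?_ contDiffOn_snd
      exact (hF.fderiv_of_isOpen hO (m := ∞) le_rfl).comp contDiffOn_fst (fun p hp => hp.1)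
    obtain ⟨C', hC0', hC'⟩ := ih (V × V) W (fun p : V × V => fderiv ℝ F p.1 p.2) (O ×ˢ univ)
      (Q ×ˢ Metric.closedBall 0 B) B (hO.prod isOpen_univ) hH
      (prod_mono hQ (subset_univ _)) (hc.prod (isCompact_closedBall _ _))
      (hv.prod (convex_closedBall _ _))
    refine ⟨max C C', le_max_of_le_left hC0, fun k ε x f g h hf hg hfx hgx => ?_⟩
    have hε := h.bd.nonneg
    have z : ∀ {U : Type} [NormedAddCommGroup U] [NormedSpace ℝ U] {f : X3 → U} {c : ℝ},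
        ‖f x‖ ≤ c → P354J.Bd 0 f x c := fun h α hα => by
      rwa [List.length_eq_zero_iff.1 (Nat.le_zero.1 hα)]
    have t := hC ε x f g ⟨h.sf, h.sg, z h.bf.zero, z h.bg.zero, z h.bd.zero⟩ hf hg hfx hgx
    have key : ∀ j k', k' + dl j = k → An k' m (max C C') (max C C' * ε) x
        (P354H.pd j fun y => F (f y)) (P354H.pd j fun y => F (g y)) := by
      rintro j k' rfl
      rw [pd_comp hO hF h.sf hf, pd_comp hO hF h.sg hg]
      refine (hC' k' ε x (fun y => (f y, P354H.pd j f y)) (fun y => (g y, P354H.pd j g y))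
        ((h.mono (Nat.le_add_right _ _) (Nat.le_succ m) le_rfl le_rfl).pair h.pd)
        (fun y => ⟨hf y, mem_univ _⟩) (fun y => ⟨hg y, mem_univ _⟩) ⟨hfx, ?_⟩ ⟨hgx, ?_⟩).mono le_rfl
        le_rfl (le_max_right _ _) (mul_le_mul_of_nonneg_right (le_max_right _ _) hε)
      · exact mem_closedBall_zero_iff.2 h.bf.pd.zero
      · exact mem_closedBall_zero_iff.2 h.bg.pd.zero
    refine ⟨t.sf, t.sg, Ba.succ (t.bf.zero.trans (le_max_left _ _)) fun j k' e => (key j k' e).bf,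
      Ba.succ (t.bg.zero.trans (le_max_left _ _)) fun j k' e => (key j k' e).bg,
      Ba.succ (t.bd.zero.trans (mul_le_mul_of_nonneg_right (le_max_left _ _) hε)) fun j k' e => ?_⟩
    rw [pd_sub t.sf t.sg]
    exact (key j k' e).bd

section
variable {D V W : Type} [NormedAddCommGroup V] [NormedSpace ℝ V] [NormedAddCommGroup W]
  [NormedSpace ℝ W]

/-- The operator T obeys Lipschitz estimates with k derivatives to spare under the hypotheses H. -/
structure Tk (H : ℕ → ℝ → ℝ → X3 → D → D → Prop) (k : ℕ) (T : D → X3 → V) : Prop where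
  sm : ∀ d, ContDiff ℝ ∞ (T d)
  est : ∀ m B, ∃ C, 0 ≤ C ∧ ∀ ε x d d', 0 ≤ ε → H m B ε x d d' →
    An k (m + k) C (C * ε) x (T d) (T d')

variable {H : ℕ → ℝ → ℝ → X3 → D → D → Prop} {k : ℕ} {T T' : D → X3 → V}

theorem Tk.low (h : Tk H (k + 1) T) : Tk H k T :=
  ⟨h.sm, fun m B => (h.est m B).imp fun _ h => ⟨h.1, fun ε x d d' h1 h2 =>
    (h.2 ε x d d' h1 h2).mono (Nat.le_succ k) (Nat.le_succ _) le_rfl le_rfl⟩⟩

theorem Tk.congr (h : Tk H k T) (e : ∀ d y, T' d y = T d y) : Tk H k T' := by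
  have : T' = T := funext fun d => funext (e d)
  rwa [this]

theorem Tk.pd (h : Tk H (k + 1) T) (j : Fin 3) : Tk H k fun d => pd j (T d) :=
  ⟨fun d => sm_pd (h.sm d) j, fun m B => (h.est m B).imp fun _ h => ⟨h.1, fun ε x d d' h1 h2 =>
    ((h.2 ε x d d' h1 h2).mono (Nat.add_le_add_left (dl_le j) k) le_rfl le_rfl le_rfl).pd⟩⟩

theorem Tk.pair {T' : D → X3 → W} (h : Tk H k T) (h' : Tk H k T') :
    Tk H k fun d y => (T d y, T' d y) := by
  refine ⟨fun d => (h.sm d).prodMk (h'.sm d), fun m B => ?_⟩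
  obtain ⟨C, hC0, hC⟩ := h.est m B
  obtain ⟨C', hC0', hC'⟩ := h'.est m B
  exact ⟨max C C', le_max_of_le_left hC0, fun ε x d d' hε h3 =>
    ((hC ε x d d' hε h3).mono le_rfl le_rfl (le_max_left _ _)
      (mul_le_mul_of_nonneg_right (le_max_left _ _) hε)).pair
    ((hC' ε x d d' hε h3).mono le_rfl le_rfl (le_max_right _ _)
      (mul_le_mul_of_nonneg_right (le_max_right _ _) hε))⟩

theorem Tk.compOn [FiniteDimensional ℝ V] (h : Tk H k T) {F : V → W} {O Q : Set V}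
    (hO : IsOpen O) (hF : ContDiffOn ℝ ∞ F O) (hQ : Q ⊆ O) (hc : IsCompact Q) (hv : Convex ℝ Q)
    (h1 : ∀ d y, T d y ∈ O) (h2 : ∀ m B ε x d d', H m B ε x d d' → T d x ∈ Q ∧ T d' x ∈ Q) :
    Tk H k fun d y => F (T d y) := by
  refine ⟨fun d => hF.comp_contDiff (h.sm d) (h1 d), fun m B => ?_⟩
  obtain ⟨C, hC0, hC⟩ := h.est m B
  obtain ⟨C', hC0', hC'⟩ := An.comp (m + k) V W F O Q C hO hF hQ hc hv
  refine ⟨max C' (C' * C), le_max_of_le_left hC0', fun ε x d d' hε h3 => ?_⟩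
  refine (hC' k (C * ε) x _ _ (hC ε x d d' hε h3) (h1 d) (h1 d') (h2 _ _ _ _ _ _ h3).1
    (h2 _ _ _ _ _ _ h3).2).mono le_rfl le_rfl (le_max_left _ _) ?_
  rw [← mul_assoc]
  exact mul_le_mul_of_nonneg_right (le_max_right _ _) hε

theorem Tk.comp [FiniteDimensional ℝ V] (h : Tk H k T) {F : V → W} (hF : ContDiff ℝ ∞ F) :
    Tk H k fun d y => F (T d y) := by
  refine ⟨fun d => hF.comp (h.sm d), fun m B => ?_⟩
  obtain ⟨C, hC0, hC⟩ := h.est m B
  obtain ⟨C', hC0', hC'⟩ := An.comp (m + k) V W F univ (Metric.closedBall 0 C) C isOpen_univ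
    hF.contDiffOn (subset_univ _) (isCompact_closedBall _ _) (convex_closedBall _ _)
  refine ⟨max C' (C' * C), le_max_of_le_left hC0', fun ε x d d' hε h3 => ?_⟩
  have h4 := hC ε x d d' hε h3
  refine (hC' k (C * ε) x _ _ h4 (fun _ => mem_univ _) (fun _ => mem_univ _)
    (mem_closedBall_zero_iff.2 h4.bf.zero) (mem_closedBall_zero_iff.2 h4.bg.zero)).mono le_rfl
    le_rfl (le_max_left _ _) ?_
  rw [← mul_assoc]
  exact mul_le_mul_of_nonneg_right (le_max_right _ _) hε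

theorem Tk.const (c : V) : Tk H k fun _ _ => c :=
  ⟨fun _ => contDiff_const, fun _ _ => ⟨‖c‖, norm_nonneg _, fun _ _ _ _ hε _ =>
    an_self contDiff_const (ba_const c) (mul_nonneg (norm_nonneg _) hε)⟩⟩

end

section
variable {D : Type} {H : ℕ → ℝ → ℝ → X3 → D → D → Prop} {k : ℕ} {T T' : D → X3 → ℝ}

theorem Tk.add (h : Tk H k T) (h' : Tk H k T') : Tk H k fun d y => T d y + T' d y :=
  (h.pair h').comp (F := fun p : ℝ × ℝ => p.1 + p.2) (by fun_prop)

theorem Tk.sub (h : Tk H k T) (h' : Tk H k T') : Tk H k fun d y => T d y - T' d y :=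
  (h.pair h').comp (F := fun p : ℝ × ℝ => p.1 - p.2) (by fun_prop)

theorem Tk.mul (h : Tk H k T) (h' : Tk H k T') : Tk H k fun d y => T d y * T' d y :=
  (h.pair h').comp (F := fun p : ℝ × ℝ => p.1 * p.2) (by fun_prop)

theorem Tk.neg (h : Tk H k T) : Tk H k fun d y => -T d y :=
  h.comp (F := fun p : ℝ => -p) (by fun_prop)

theorem Tk.half (h : Tk H k T) : Tk H k fun d y => T d y / 2 :=
  h.comp (F := fun p : ℝ => p / 2) (by fun_prop)

theorem Tk.sum {ι : Type} (s : Finset ι) {T : ι → D → X3 → ℝ} (h : ∀ i, Tk H k (T i)) :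
    Tk H k fun d y => ∑ i ∈ s, T i d y := by
  classical
  induction s using Finset.induction_on with
  | empty => simpa using Tk.const (0 : ℝ)
  | insert a s ha ih =>
    simp only [Finset.sum_insert ha]
    exact (h a).add ih

end

end Vale.Agent.P354KK
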