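import Vale.Agent.P354KK.Op
import Vale.Agent.P354KC.Lip
import Vale.Agent.P354KD.Alg

open scoped ContDiff
open MeasureTheory Set Filter Topology Matrix

noncomputable section

namespace Vale.Agent.P354KK

open Vale.Agent.P354H (X3 pd pdl tr pd_tr pdl_tr)
open Vale.Agent.P354C (Ix)
open Vale.Agent.P354J
open Vale.Agent.P354K (n0 kOf par)
open Vale.Agent.P354KC (Lo)

/-! ### Translations -/

theorem MD_tr' {m n : Type} (j : Fin 3) (c : X3) (M : X3 → Matrix m n ℝ) :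
    MD j (tr c M) = tr c (MD j M) := by
  funext x
  ext a b
  exact congrFun (pd_tr j c fun y => M y a b) x

theorem GW_tr (c : X3) (h K : X3 → M3) : GW (tr c h) (fun y => (tr c h y)⁻¹) (tr c K) =
    fun i => tr c (GW h (fun y => (h y)⁻¹) K i) := by
  funext i y
  simp only [GW, Chr, MD_tr']
  rfl

theorem CC_tr (c : X3) (h K : X3 → M3) (y : X3) : CC (tr c h) (tr c K) y ↔ CC h K (y + c) := by
  simp only [CC, curv, GW_tr, MD_tr']
  rfl

theorem MS_tr {m n : Type} {M : X3 → Matrix m n ℝ} (h : MS M) (c : X3) : MS (tr c M) :=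
  fun a b => P354H.tr_sm c (h a b)

theorem PD_tr {h K : X3 → M3} (D : PD h K) (c : X3) : PD (tr c h) (tr c K) :=
  ⟨MS_tr D.sh c, MS_tr D.sK c, fun _ => D.pos _⟩

theorem U0_tr (c : X3) (h K : X3 → M3) : U0 (tr c h) (tr c K) = tr c (U0 h K) := by
  have e : U1 (tr c h) (tr c K) = tr c (U1 h K) := by
    funext y
    have e1 : S0 (fun y => Oh (tr c h y)) (fun y => Eh (tr c h y)) =
        tr c (S0 (fun y => Oh (h y)) fun y => Eh (h y)) := rfl
    simp only [U1, Gh, ev, om, P354J.gauge, GW_tr, e1, MD_tr']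
    rfl
  funext y
  have e2 : ∀ i j, pd j (fun z => tr c (U1 h K) z i) y = pd j (fun z => U1 h K z i) (y + c) :=
    fun i j => congrFun (pd_tr j c fun z => U1 h K z i) y
  have e3 : dsl (tr c (U1 h K)) y = dsl (U1 h K) (y + c) := by
    funext k i
    simp only [dsl, fd, e2]
    rfl
  rw [U0, e, e3]
  rfl

/-! ### The oscillation -/

theorem sin_big {l : ℝ} (hl : 5 ≤ l) (R p : ℝ) :
    1 / 3 ≤ volume {w ∈ Ioo R (R + 1) | 1 / 4 ≤ |Real.sin (l * (w - p))|} := by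
  have h0 : 0 < l := by linarith
  have c : Continuous fun w => Real.sin (l * (w - p)) := by fun_prop
  have mS : MeasurableSet {w ∈ Ioo R (R + 1) | 1 / 4 ≤ |Real.sin (l * (w - p))|} :=
    measurableSet_Ioo.inter (isClosed_le continuous_const c.abs).measurableSet
  have sub : {w ∈ Ioo R (R + 1) | 1 / 4 ≤ |Real.sin (l * (w - p))|} ⊆ Ioo R (R + 1) := sep_subset _ _
  generalize hS : {w ∈ Ioo R (R + 1) | 1 / 4 ≤ |Real.sin (l * (w - p))|} = S at *
  have fin : volume S ≠ ⊤ := ((measure_mono sub).trans_lt measure_Ioo_lt_top).ne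
  have i1 : ∫ w in R..R + 1, Real.sin (l * (w - p)) ^ 2 = _ :=
    intervalIntegral.integral_eq_sub_of_hasDerivAt
      (f := fun w => w / 2 - Real.sin (2 * (l * (w - p))) / (4 * l)) (fun w _ => by
        have d := (((((hasDerivAt_id w).sub_const p).const_mul l).const_mul 2).sin.div_const
          (4 * l))
        refine (((hasDerivAt_id w).div_const 2).sub d).congr_deriv ?_
        simp only [id]
        rw [Real.cos_two_mul, Real.cos_sq']
        field_simp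
        ring) ((c.pow 2).intervalIntegrable _ _)
  have i2 : ∫ w in Ioo R (R + 1), Real.sin (l * (w - p)) ^ 2 ≤
      ∫ w in Ioo R (R + 1), (1 / 16 + S.indicator (fun _ => (1 : ℝ)) w) := by
    refine setIntegral_mono_on ((c.pow 2).integrableOn_Icc.mono_set Ioo_subset_Icc_self)
      ((integrableOn_const measure_Ioo_lt_top.ne).add
        ((integrableOn_const measure_Ioo_lt_top.ne).indicator mS)) measurableSet_Ioo fun w hw => ?_
    by_cases h : w ∈ S
    · rw [indicator_of_mem h]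
      linarith [Real.sin_sq_le_one (l * (w - p))]
    · rw [indicator_of_notMem h, ← sq_abs]
      have : |Real.sin (l * (w - p))| < 1 / 4 := not_le.1 fun k => h (hS ▸ ⟨hw, k⟩)
      nlinarith [abs_nonneg (Real.sin (l * (w - p)))]
  have ic : ∀ a : ℝ, IntegrableOn (fun _ => a) (Ioo R (R + 1)) := fun a =>
    integrableOn_const measure_Ioo_lt_top.ne
  rw [integral_add (ic _) ((ic _).indicator mS), integral_indicator mS,
    Measure.restrict_restrict mS, inter_eq_left.2 sub, ← integral_Ioc_eq_integral_Ioo,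
    ← intervalIntegral.integral_of_le (by linarith), i1] at i2
  simp only [integral_const, MeasurableSet.univ, measureReal_restrict_apply, univ_inter,
    Real.volume_real_Ioo, add_sub_cancel_left, smul_eq_mul, mul_one] at i2
  have b1 := Real.sin_le_one (2 * (l * (R + 1 - p)))
  have b2 := Real.neg_one_le_sin (2 * (l * (R - p)))
  have b3 : Real.sin (2 * (l * (R + 1 - p))) / (4 * l) ≤ 1 / 20 := by
    rw [div_le_iff₀ (by positivity)]
    linarith
  have b4 : -(1 / 20) ≤ Real.sin (2 * (l * (R - p))) / (4 * l) := by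
    rw [le_div_iff₀ (by positivity)]
    linarith
  rw [← ENNReal.ofReal_toReal fin, show (1 / 3 : ENNReal) = ENNReal.ofReal (1 / 3) by
    rw [ENNReal.ofReal_div_of_pos (by norm_num)]; simp]
  refine ENNReal.ofReal_le_ofReal ?_
  rw [max_eq_left zero_le_one] at i2
  change _ ≤ volume.real S
  linarith

theorem pdl_xmul {f g : X3 → ℝ} (hf : ContDiff ℝ ∞ f) (hg : ContDiff ℝ ∞ g)
    (h : ∀ j ≠ 0, pd j f = fun _ => 0) {α : List (Fin 3)} (hα : n0 α ≤ 0) :
    pdl α (fun z => f z * g z) = fun z => f z * pdl α g z := by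
  induction α generalizing g with
  | nil => rfl
  | cons j α ih =>
    rw [n0_cons] at hα
    have hj : j ≠ 0 := fun e => by simp [dl, e] at hα
    simp only [pdl]
    rw [P354K.pd_mul j hf hg, h j hj]
    simp only [zero_mul, zero_add]
    exact ih (sm_pd hg j) (by omega)

/-- The phase function. -/
def cs (l e : ℝ) (z : X3) : ℝ := e * Real.cos (l * z.1)

theorem cs_sm (l e : ℝ) : ContDiff ℝ ∞ (cs l e) := by
  unfold cs
  fun_prop

theorem pd_fst {F F' : ℝ → ℝ} (hF : ∀ x, HasDerivAt F (F' x) x) (j : Fin 3) :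
    pd j (fun z => F z.1) = fun z => if j = 0 then F' z.1 else 0 := by
  have := P354K.pd_comp j hF (P354K.co_sm 0)
  rw [P354K.pd_co] at this
  refine this.trans (funext fun z => ?_)
  by_cases h : j = 0
  · simp [h, P354K.co]
  · simp [h, Ne.symm h]

theorem pd_cs (l e : ℝ) (j : Fin 3) :
    pd j (cs l e) = fun z => if j = 0 then -(e * l * Real.sin (l * z.1)) else 0 :=
  pd_fst (F := fun x => e * Real.cos (l * x)) (F' := fun x => -(e * l * Real.sin (l * x)))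
    (fun x => (((hasDerivAt_id x).const_mul l).cos.const_mul e).congr_deriv (by simp; ring)) j

theorem ba_cs (m : ℕ) (l e : ℝ) (y : X3) : Ba 0 m (cs l e) y |e| := fun α h1 h2 => by
  have := pdl_xmul (cs_sm l e) (contDiff_const (c := 1)) (fun j hj => by simp [pd_cs, hj]) h2
  simp only [mul_one] at this
  rw [show pdl α (cs l e) = _ from this, norm_mul]
  have b := ba_const (k := 0) (x := y) (1 : ℝ) α h1 h2
  have b2 : ‖cs l e y‖ ≤ |e| := by
    rw [cs, Real.norm_eq_abs, abs_mul]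
    exact mul_le_of_le_one_right (abs_nonneg _) (Real.abs_cos_le_one _)
  exact (mul_le_of_le_one_right (norm_nonneg _) (b.trans norm_one.le)).trans b2

/-! ### The polarisation -/

/-- The amplitude of the main packet. -/
def Pi0 (H : M3) (t : ℝ) : M3 := (t * √H.det / Oh H ^ 3) • ((Eh H)ᵀ * NN * Eh H)

theorem Pi0_symm (H : M3) (t : ℝ) : (Pi0 H t).IsSymm := by
  have : NNᵀ = NN := by
    ext i j
    fin_cases i <;> fin_cases j <;> rfl
  simp only [Pi0, Matrix.IsSymm, transpose_smul, transpose_mul, transpose_transpose, this, mul_assoc]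

theorem Pi0_zero (H : M3) (t : ℝ) (b : Fin 3) : Pi0 H t b 0 = 0 := by
  simp [Pi0, Matrix.mul_apply, Fin.sum_univ_three, NN, Eh]

theorem Pi0_k {H : M3} (hp : H.PosDef) (t : ℝ) :
    Eh H * kOf H (Pi0 H t) * (Eh H)ᵀ = (t * Oh H) • NN := by
  obtain ⟨o1, o2, o3⟩ := OO_of_posDef hp
  have on := Eh_on (sym_of_posDef hp) o1 o2 o3
  have o := (Oh_pos o2 o3).ne'
  have s := (Real.sqrt_pos.2 o3).ne'
  have t0 : (H * ((Eh H)ᵀ * NN * Eh H)).trace = 0 := by
    rw [← mul_assoc, Matrix.trace_mul_comm, ← mul_assoc, ← mul_assoc, on]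
    simp [NN, Matrix.trace, Fin.sum_univ_three]
  have e : Eh H * (H * ((Eh H)ᵀ * NN * Eh H) * H) * (Eh H)ᵀ =
      (Eh H * H * (Eh H)ᵀ) * NN * (Eh H * H * (Eh H)ᵀ) := by simp only [mul_assoc]
  rw [P354KD.kOf_mat hp, Pi0]
  simp only [Matrix.mul_smul, Matrix.smul_mul, Matrix.trace_smul, t0, smul_zero, zero_div,
    zero_smul, sub_zero, e, on, mul_one, one_mul, smul_smul]
  congr 1
  field_simp

theorem sm_Pi0 (a b : Fin 3) :
    ContDiffOn ℝ ∞ (fun p : N3 × ℝ => Pi0 (Matrix.of p.1) p.2 a b) (OO ×ˢ univ) := by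
  have c : ∀ {F : N3 → ℝ}, ContDiffOn ℝ ∞ F OO →
      ContDiffOn ℝ ∞ (fun p : N3 × ℝ => F p.1) (OO ×ˢ univ) :=
    fun hF => hF.comp contDiffOn_fst fun _ hp => hp.1
  simp only [Pi0, Matrix.smul_apply, smul_eq_mul, Matrix.mul_apply, transpose_apply]
  exact ((contDiffOn_snd.mul (c (sm_det.contDiffOn.sqrt fun _ h => h.2.2.ne'))).div
    ((c sm_Oh).pow 3) fun _ h => pow_ne_zero 3 (Oh_pos h.1.2.1 h.1.2.2).ne').mul
    (ContDiffOn.sum fun j _ => (ContDiffOn.sum fun i _ =>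
      (c (sm_Eh i a)).mul contDiffOn_const).mul (c (sm_Eh j b)))

theorem sm_k0 (a b : Fin 3) : ContDiffOn ℝ ∞
    (fun p : N3 × ℝ => kOf (Matrix.of p.1) (Pi0 (Matrix.of p.1) p.2) a b) (OO ×ˢ univ) := by
  have g : ∀ a b, ContDiffOn ℝ ∞ (fun p : N3 × ℝ => Matrix.of p.1 a b) (OO ×ˢ univ) :=
    fun a b => ((sm_entry a b).comp contDiff_fst).contDiffOn
  refine ContDiffOn.div ?_ (((sm_det.comp contDiff_fst).contDiffOn).sqrt fun _ h => h.1.2.2.ne')
    fun _ h => (Real.sqrt_pos.2 h.1.2.2).ne'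
  exact (ContDiffOn.sum fun c _ => ContDiffOn.sum fun d _ =>
    ((g a c).mul (g b d)).mul (sm_Pi0 c d)).sub (((g a b).mul (ContDiffOn.sum fun c _ =>
      ContDiffOn.sum fun d _ => (g c d).mul (sm_Pi0 c d))).div_const 2)

/-- Uniformly positive bounded matrices. -/
def QN (c B : ℝ) : Set N3 :=
  {H | (∀ a b, H a b = H b a) ∧ Lo c (Matrix.of H)} ∩ Metric.closedBall 0 B

theorem QN_sub {c : ℝ} (hc : 0 < c) (B : ℝ) : QN c B ⊆ OO := fun _ hp =>
  OO_of_posDef (hp.1.2.posDef hc hp.1.1)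

theorem QN_eq (c B : ℝ) : QN c B = Prod.fst '' P354KC.QQ c B := by
  ext H
  refine ⟨fun h => ⟨(H, 0), ⟨h.1, by simpa using h.2⟩, rfl⟩, ?_⟩
  rintro ⟨p, hp, rfl⟩
  exact ⟨hp.1, mem_closedBall_zero_iff.2 ((norm_fst_le p).trans (mem_closedBall_zero_iff.1 hp.2))⟩

theorem QN_cpt (c B : ℝ) : IsCompact (QN c B) :=
  QN_eq c B ▸ (P354KC.QQ_cpt c B).image continuous_fst

theorem QN_cvx (c B : ℝ) : Convex ℝ (QN c B) :=
  QN_eq c B ▸ (P354KC.QQ_cvx c B).linear_image (LinearMap.fst ℝ _ _)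

theorem QN_mem {c B : ℝ} {H : M3} (hp : H.PosDef) (h : Lo c H) (hB : ∀ a b, ‖H a b‖ ≤ B) :
    (H : N3) ∈ QN c B :=
  have h0 := (norm_nonneg _).trans (hB 0 0)
  ⟨⟨sym_of_posDef hp, h⟩, mem_closedBall_zero_iff.2 ((pi_norm_le_iff_of_nonneg h0).2 fun a =>
    (pi_norm_le_iff_of_nonneg h0).2 fun b => hB a b)⟩

/-- Bounds for smooth functions of h and of a function χ. -/
theorem fun_bd {F : N3 × ℝ → ℝ} (hF : ContDiffOn ℝ ∞ F (OO ×ˢ univ)) {c : ℝ} (hc : 0 < c) (B : ℝ)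
    (m : ℕ) : ∃ C, 0 ≤ C ∧ ∀ {h K : X3 → M3} {χ : X3 → ℝ} {y : X3} {k : ℕ}, PD h K →
      ContDiff ℝ ∞ χ → Lo c (h y) → (∀ a b, Ba k m (fun z => h z a b) y B) → Ba k m χ y B →
      Ba k m (fun z => F (h z, χ z)) y C := by
  obtain ⟨C, h0, hC⟩ := An.comp m _ _ F _ (QN c B ×ˢ Metric.closedBall 0 B) B
    (isOpen_OO.prod isOpen_univ) hF (prod_mono (QN_sub hc B) (subset_univ _))
    ((QN_cpt c B).prod (isCompact_closedBall _ _)) ((QN_cvx c B).prod (convex_closedBall _ _))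
  refine ⟨C, h0, fun {h K χ y k} D hχ lo b1 b2 => ?_⟩
  have q : ((h y : N3), χ y) ∈ QN c B ×ˢ Metric.closedBall 0 B :=
    ⟨QN_mem (D.pos y).1 lo fun a b => (b1 a b).zero, mem_closedBall_zero_iff.2 b2.zero⟩
  exact (hC k 0 y _ _ (an_self (D.smN.prodMk hχ) (Ba.pair D.smN hχ
    (Ba.pi (fun a => contDiff_pi.2 fun b => D.sh a b) b2.nonneg fun a =>
      Ba.pi (D.sh a) b2.nonneg (b1 a)) b2) le_rfl) (fun z => ⟨D.oo z, mem_univ _⟩)
    (fun z => ⟨D.oo z, mem_univ _⟩) q q).bf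

theorem U0_c0 (d : Dt) (hc : d.c = fun _ => 0) (y : X3) (i : Ix) : U0 d.h d.K y i = d.U y i := by
  have e : d.Kc = d.K := funext fun y => by simp [Dt.Kc, hc]
  rw [U0_eq d.pd, Dt.U, e]
  simp only [Fh, ev2, om, curv_gauge d.pd.frm.sS d.pd.frm.sT d.pd.dat.gw d.pd.frm.TS, Dt.F, Dt.cv,
    hc, zero_smul, mul_zero, add_zero]
  rfl

theorem lipU {Q : Set N3} (hQ : Q ⊆ OO) (hc : IsCompact Q) (hv : Convex ℝ Q) (m : ℕ) (B : ℝ) :
    ∃ C, 0 ≤ C ∧ ∀ {d d' : Dt} {ε : ℝ} {x : X3}, 0 ≤ ε → Hyp Q m B ε x d d' → ∀ i,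
      An 0 m C (C * ε) x (fun z => d.U z i) fun z => d'.U z i := by
  choose C h0 hC using fun i => (tk_U hQ hc hv i).est m B
  refine ⟨∑ i, C i, Finset.sum_nonneg fun i _ => h0 i, fun {d d' ε x} e0 H i => ?_⟩
  have s := Finset.single_le_sum (f := C) (fun i _ => h0 i) (Finset.mem_univ i)
  exact (hC i ε x d d' e0 H).mono le_rfl le_rfl s (mul_le_mul_of_nonneg_right s e0)

/-- Data with c = 0. -/
def mk0 {h K κ : X3 → M3} (D : PD h K) (s : MS κ) : Dt := ⟨h, K, κ, fun _ => 0, D, s, contDiff_const⟩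

theorem mk0_U {h K κ : X3 → M3} (D : PD h K) (s : MS κ) (y : X3) (i : Ix) :
    (mk0 D s).U y i = U0 h K y i := (U0_c0 (mk0 D s) rfl y i).symm

theorem loc0 {Q : Set N3} (hQ : Q ⊆ OO) (hc : IsCompact Q) (hv : Convex ℝ Q) (B : ℝ) :
    ∃ C, 0 ≤ C ∧ ∀ {h K h2 K2 κ : X3 → M3} {χ : X3 → ℝ} {l e ε : ℝ} {y : X3}, PD h K → PD h2 K2 →
      PD h (fun z => K z + cs l e z • κ z) → MS κ → |e| ≤ ε → ε ≤ B →
      (∀ z, Eh (h z) * κ z * (Eh (h z))ᵀ = (χ z * Oh (h z)) • NN) →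
      (h y : N3) ∈ Q → (h2 y : N3) ∈ Q →
      (∀ a b, An 2 6 B ε y (fun z => h2 z a b) (fun z => h z a b) ∧
        An 1 5 B ε y (fun z => K2 z a b) (fun z => (K z + cs l e z • κ z) a b) ∧
        Ba 1 5 (fun z => K z a b) y B ∧ Ba 1 5 (fun z => κ z a b) y B) →
      ∀ i, Ba 0 4 (fun z => U0 h2 K2 z i - U0 h K z i - pd 0 (cs l e) z * χ z * cf i) y
        (C * ε) := by
  obtain ⟨C, h0, hC⟩ := lipU hQ hc hv 4 B
  refine ⟨C + C, add_nonneg h0 h0,
    fun {h K h2 K2 κ χ l e ε y} D D' D2 sκ he hε hκ q q' H i => ?_⟩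
  have e0 : 0 ≤ ε := (abs_nonneg _).trans he
  have bκ := fun a b => an_self (sκ a b) (H a b).2.2.2 e0
  have z0 : An 0 4 B ε y (fun _ => (0 : ℝ)) fun _ => 0 :=
    an_self contDiff_const ((ba_const _).mono le_rfl le_rfl (by rw [norm_zero]; linarith)) e0
  have k1 := hC (d := mk0 D' sκ) (d' := mk0 D2 sκ) e0
    ⟨fun a b => (H a b).1, fun a b => (H a b).2.1, bκ, z0, q', q⟩ i
  have k2 := hC (d := ⟨h, K, κ, cs l e, D, sκ, cs_sm l e⟩) (d' := mk0 D sκ) e0
    ⟨fun a b => an_self (D.sh a b) (H a b).1.bg e0,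
      fun a b => an_self (D.sK a b) (H a b).2.2.1 e0, bκ,
      ⟨cs_sm l e, contDiff_const, (ba_cs _ l e y).mono le_rfl le_rfl (he.trans hε), z0.bf, by
        simpa [mk0] using (ba_cs _ l e y).mono le_rfl le_rfl he⟩, q, q⟩ i
  have k3 := Ba.add (k1.sf.sub k1.sg) (k2.sf.sub k2.sg) k1.bd k2.bd
  rw [← add_mul] at k3
  refine (congrArg (fun f => Ba 0 4 f y _) (funext fun z => ?_)).mp k3
  have u : U0 h (fun z => K z + cs l e z • κ z) z i = _ + pd 0 (cs l e) z * χ z * cf i :=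
    U0_Kc ⟨h, K, κ, cs l e, D, sκ, cs_sm l e⟩ D2 z (by simp [pd_cs]) (by simp [pd_cs]) (hκ z) i
  rw [mk0_U, mk0_U, mk0_U, u]
  ring

theorem fun_sm {F : N3 × ℝ → ℝ} (hF : ContDiffOn ℝ ∞ F (OO ×ˢ univ)) {h K : X3 → M3} {χ : X3 → ℝ}
    (D : PD h K) (hχ : ContDiff ℝ ∞ χ) : ContDiff ℝ ∞ fun z => F (h z, χ z) :=
  hF.comp_contDiff (D.smN.prodMk hχ) fun z => ⟨D.oo z, mem_univ _⟩

theorem k0_sm {h K : X3 → M3} {χ : X3 → ℝ} (D : PD h K) (hχ : ContDiff ℝ ∞ χ) :
    MS fun z => kOf (h z) (Pi0 (h z) (χ z)) := fun a b => fun_sm (sm_k0 a b) D hχ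

theorem k0_bd {c : ℝ} (hc : 0 < c) (B : ℝ) (m : ℕ) : ∃ C, ∀ {h K : X3 → M3} {χ : X3 → ℝ} {y : X3},
    PD h K → ContDiff ℝ ∞ χ → Lo c (h y) → (∀ a b, Ba m m (fun z => h z a b) y B) → Ba m m χ y B →
      ∀ a b, Ba m m (fun z => kOf (h z) (Pi0 (h z) (χ z)) a b) y C := by
  choose C1 h1 hC1 using fun t : Fin 3 × Fin 3 => fun_bd (sm_k0 t.1 t.2) hc B m
  obtain ⟨B1, b1⟩ := (finite_range C1).bddAbove
  exact ⟨B1, fun D hχ lo b bχ i j => (hC1 (i, j) D hχ lo b bχ).mono le_rfl le_rfl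
    (b1 (mem_range_self _))⟩

/-- The change of the initial values. -/
theorem loc {c : ℝ} (hc : 0 < c) (B : ℝ) : ∃ C, 0 ≤ C ∧
    ∀ {h K h' K' : X3 → M3} {χ : X3 → ℝ} {l e ε : ℝ} {y : X3}, PD h K → PD (h + h') (K + K') →
      ContDiff ℝ ∞ χ → Lo c (h y) → Lo c (h y + h' y) → |e| ≤ ε → ε ≤ B → Ba 6 6 χ y B →
      (∀ a b, Ba 6 6 (fun z => h z a b) y B ∧ Ba 6 6 (fun z => K z a b) y B ∧
        Ba 6 6 (fun z => h' z a b) y B ∧ Ba 6 6 (fun z => K' z a b) y B ∧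
        Ba 2 6 (fun z => h' z a b) y ε ∧
        Ba 1 5 (fun z => K' z a b - cs l e z * kOf (h z) (Pi0 (h z) (χ z)) a b) y ε) →
      ∀ i, Ba 0 4 (fun z => U0 (h + h') (K + K') z i - U0 h K z i -
        pd 0 (cs l e) z * χ z * cf i) y (C * ε) := by
  obtain ⟨B1, b1⟩ := k0_bd hc B 6
  obtain ⟨B', b2, b3⟩ : ∃ B', B1 ≤ B' ∧ 3 * B ≤ B' := ⟨max _ _, le_max_left _ _, le_max_right _ _⟩
  obtain ⟨C, h0, hC⟩ := loc0 (QN_sub hc B') (QN_cpt c B') (QN_cvx c B') B'
  refine ⟨C, h0, fun {h K h' K' χ l e ε y} D D' hχ lo lo' he hε bχ H => ?_⟩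
  have e0 : 0 ≤ ε := (abs_nonneg _).trans he
  have B0 : 0 ≤ B := e0.trans hε
  have sκ := k0_sm D hχ
  have bκ := fun a b => (b1 D hχ lo (fun a b => (H a b).1) bχ a b).mono (k' := 1) (m' := 5)
    (by omega) (by omega) b2
  have yκ := fun z => P354KD.kOf_symm (D.pos z).1 (Pi0_symm (h z) (χ z))
  have eκ := fun z => Pi0_k (D.pos z).1 (χ z)
  have bd := fun a b => (H a b).2.2.2.2.2
  obtain ⟨κ, hκ⟩ : ∃ κ : X3 → M3, ∀ z, kOf (h z) (Pi0 (h z) (χ z)) = κ z := ⟨_, fun _ => rfl⟩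
  simp only [hκ] at sκ bκ yκ eκ bd
  replace sκ : MS κ := sκ
  have sh' : MS h' := fun a b => by simpa using (D'.sh a b).sub (D.sh a b)
  have sK' : MS K' := fun a b => by simpa using (D'.sK a b).sub (D.sK a b)
  have D2 : PD h fun z => K z + cs l e z • κ z := ⟨D.sh, D.sK.add (MS.smul (cs_sm l e) sκ),
    fun z => ⟨(D.pos z).1, (D.pos z).2.add ((yκ z).smul _)⟩⟩
  have bh : ∀ a b, Ba 2 6 (fun z => h z a b) y B' := fun a b =>
    (H a b).1.mono (by omega) le_rfl (by linarith)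
  have bh' : ∀ a b, Ba 2 6 (fun z => (h + h') z a b) y B' := fun a b =>
    (Ba.add (D.sh a b) (sh' a b) (H a b).1 (H a b).2.2.1).mono (by omega) le_rfl (by linarith)
  have bK' : ∀ a b, Ba 1 5 (fun z => (K + K') z a b) y (B + B) := fun a b =>
    (Ba.add (D.sK a b) (sK' a b) (H a b).2.1 (H a b).2.2.2.1).mono (by omega) (by omega) le_rfl
  have bd' : ∀ a b, Ba 1 5 (fun z => (K + K') z a b - (K z + cs l e z • κ z) a b) y ε :=
    fun a b => by simpa using bd a b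
  refine hC D D' D2 sκ he (by linarith) eκ (QN_mem (D.pos y).1 lo fun a b => (bh a b).zero)
    (QN_mem (D'.pos y).1 lo' fun a b => (bh' a b).zero) fun a b => ⟨⟨D'.sh a b, D.sh a b, bh' a b,
      bh a b, by simpa using (H a b).2.2.2.2.1⟩, ⟨D'.sK a b, D2.sK a b,
      (bK' a b).mono le_rfl le_rfl (by linarith), ?_, bd' a b⟩,
      (H a b).2.1.mono (by omega) (by omega) (by linarith), bκ a b⟩
  have := (Ba.sub (D'.sK a b) ((D'.sK a b).sub (D2.sK a b)) (bK' a b) (bd' a b)).mono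
    le_rfl le_rfl (show _ ≤ B' by linarith)
  simpa only [sub_sub_cancel] using this

/-- The initial values are local. -/
theorem U0_loc {h K h' K' : X3 → M3} (D : PD h K) (D' : PD (h + h') (K + K')) {y : X3}
    (H : ∀ a b α, pdl α (fun z => h' z a b) y = 0 ∧ pdl α (fun z => K' z a b) y = 0) (i : Ix) :
    U0 (h + h') (K + K') y i = U0 h K y i := by
  have e : h' y = 0 := by
    ext a b
    exact (H a b []).1
  choose c1 h1 using fun t : Fin 3 × Fin 3 => ex_ba 2 (fun z => h z t.1 t.2) y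
  choose c2 h2 using fun t : Fin 3 × Fin 3 => ex_ba 2 (fun z => K z t.1 t.2) y
  obtain ⟨B1, b1⟩ := (finite_range c1).bddAbove
  obtain ⟨B2, b2⟩ := (finite_range c2).bddAbove
  obtain ⟨C, -, hC⟩ := lipU (Q := {(h y : N3)}) (singleton_subset_iff.2 (D.oo y))
    isCompact_singleton (convex_singleton _) 0 (max B1 B2)
  have sh' : MS h' := fun a b => by simpa using (D'.sh a b).sub (D.sh a b)
  have sK' : MS K' := fun a b => by simpa using (D'.sK a b).sub (D.sK a b)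
  have z1 : ∀ a b, Ba 2 2 (fun z => h' z a b) y 0 := fun a b α _ _ => by simp [(H a b α).1]
  have z2 : ∀ a b, Ba 1 1 (fun z => K' z a b) y 0 := fun a b α _ _ => by simp [(H a b α).2]
  have bh : ∀ a b, Ba 2 2 (fun z => h z a b) y (max B1 B2) := fun a b =>
    (h1 (a, b) 2).mono le_rfl le_rfl (le_max_of_le_left (b1 (mem_range_self _)))
  have bK : ∀ a b, Ba 1 1 (fun z => K z a b) y (max B1 B2) := fun a b =>
    (h2 (a, b) 1).mono le_rfl one_le_two (le_max_of_le_right (b2 (mem_range_self _)))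
  have z0 : ∀ k m, An k m (max B1 B2) 0 y (fun _ => (0 : ℝ)) fun _ => 0 := fun k m =>
    an_self contDiff_const ((ba_const _).mono le_rfl le_rfl (norm_zero.le.trans (bh 0 0).nonneg))
      le_rfl
  have k := (hC (d := mk0 D' (MS.const 0)) (d' := mk0 D (MS.const 0)) le_rfl
    ⟨fun a b => ⟨D'.sh a b, D.sh a b, (Ba.add (D.sh a b) (sh' a b) (bh a b) (z1 a b)).mono le_rfl
      le_rfl (add_zero _).le, bh a b, by simpa [mk0] using z1 a b⟩,
      fun a b => ⟨D'.sK a b, D.sK a b, (Ba.add (D.sK a b) (sK' a b) (bK a b) (z2 a b)).mono le_rfl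
        le_rfl (add_zero _).le, bK a b, by simpa [mk0] using z2 a b⟩, fun _ _ => z0 _ _, z0 _ _,
      show (h y + h' y : N3) = h y by rw [e, add_zero], rfl⟩ i).bd.zero
  rwa [mk0_U, mk0_U, mul_zero, norm_le_zero_iff, sub_eq_zero] at k

end Vale.Agent.P354KK
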