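import Vale.Agent.P354KK.Chart
import Vale.Agent.P354KU.Push
import Vale.Agent.P354J.Lip
import Vale.Agent.P354IN.Main

open scoped ContDiff
open MeasureTheory Set Filter Topology Matrix

noncomputable section

namespace Vale.Agent.P354KK

open Vale.Agent.P354H (X3 pd pdl tr pd_tr pdl_tr)
open Vale.Agent.P354J
open Vale.Agent.P354K (cube COREK WIT Wit jet piOf hS kS)
open Vale.Agent.P354KC (Lo)
open Vale.Agent.P354D (sgn cpt IsKick KICK)
open Vale.Agent.P354I (Dat pm kerr rm)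

/-- The centre of the cube. -/
def ctr (b : Bool) (u : ℝ) : X3 := (sgn b * (u - 1), 0, 0)

theorem sgn_mul (b : Bool) (x : ℝ) : sgn b * (sgn b * x) = x := by
  cases b <;> simp [sgn]

theorem abs_sgn (b : Bool) (x : ℝ) : |sgn b * x| = |x| := by
  cases b <;> simp [sgn]

theorem abs_sin (b : Bool) (l x : ℝ) : |Real.sin (l * (sgn b * x))| = |Real.sin (l * x)| := by
  cases b <;> simp [sgn]

theorem tr_add (c : X3) (F h : X3 → M3) : tr c F + h = tr c (F + tr (-c) h) := by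
  funext y
  simp [tr]

theorem tr_add' (c : X3) (F h : X3 → M3) : tr (-c) (tr c F + h) = F + tr (-c) h := by
  funext y
  simp [tr]

theorem kick_of {b : Bool} {Λ l A c u : ℝ} {m : ℕ} {K1 : Set X3} {F K h' K' : X3 → M3}
    (H : Res b Λ l A c m K1 (tr (ctr b u) F) (tr (ctr b u) K) h' K')
    (hK : ∀ y ∈ K1, 1 < sgn b * y.1) (hl : 5 ≤ l) :
    IsKick b Λ (u - 2) A (U0 F K) (U0 (F + tr (-ctr b u) h') (K + tr (-ctr b u) K')) := by
  obtain ⟨-, -, -, -, h1, h2, h3⟩ := H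
  simp only [tr_add, U0_tr] at h1 h2 h3
  generalize U0 (F + tr (-ctr b u) h') (K + tr (-ctr b u) K') = U' at *
  generalize U0 F K = U at *
  have e : ∀ z : X3, sgn b * (z - ctr b u).1 = sgn b * z.1 - (u - 1) := fun z => by
    rw [Prod.fst_sub, mul_sub, ctr, sgn_mul]
  refine ⟨fun z hz => ?_, fun i α a1 a2 z hz _ => ?_, (sin_big hl (u - 2) (u - 1)).trans
    (measure_mono fun w hw => ⟨hw.1, fun y hy => ?_⟩)⟩
  · have := h1 (z - ctr b u) fun k => by
      have k1 : |(z - ctr b u).1| < Real.pi := k 0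
      rw [← abs_sgn b, e] at k1
      linarith [neg_abs_le (sgn b * z.1 - (u - 1)), Real.pi_lt_four]
    simpa only [tr, sub_add_cancel] using this
  · have := h2 i α a1 a2 (z - ctr b u) fun k => by linarith [hK _ k, e z]
    rwa [show (fun z => tr (ctr b u) U' z i - tr (ctr b u) U z i) =
      tr (ctr b u) fun z => U' z i - U z i from rfl, pdl_tr, tr, sub_add_cancel] at this
  · have w1 := hw.1.1
    have w2 := hw.1.2
    have := h3 (sgn b * (w - (u - 1)), y) (mem_closedBall_zero_iff.2 (max_le (by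
      rw [Real.norm_eq_abs, abs_sgn, abs_le]
      constructor <;> linarith) (max_le (abs_le.2 ⟨by nlinarith, by nlinarith⟩)
        (abs_le.2 ⟨by nlinarith, by nlinarith⟩)))) (fun k => by
          have := hK _ k
          rw [sgn_mul] at this
          linarith) (by rw [abs_sin]; exact hw.2)
    rwa [tr, tr, show (sgn b * (w - (u - 1)), y) + ctr b u = (sgn b * w, y) by
      ext <;> simp [ctr]; ring] at this

theorem wt_far {s u : ℝ} (hs : 0 ≤ s) (b : Bool) {y : X3} (hy : y ∈ cube) (hu : 5 < u) :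
    wt s (y + ctr b u) ≤ (u - 5) ^ (-s) := by
  refine Real.rpow_le_rpow_of_nonpos (by linarith) (Real.le_sqrt_of_sq_le ?_) (by linarith)
  have k : |y.1| < Real.pi := hy 0
  have e : (y + ctr b u).1 = sgn b * (sgn b * y.1 + (u - 1)) := by
    rw [mul_add, sgn_mul]
    rfl
  rw [← abs_sgn b, abs_lt] at k
  rw [e, ← sq_abs (sgn b * _), abs_sgn, sq_abs]
  nlinarith [Real.pi_lt_four]

theorem bd_tr {f g : X3 → ℝ} (hg : ∀ x y, g (x, y) = g (0, y)) {m : ℕ} {C : ℝ} {y : X3} {b : Bool}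
    {u : ℝ} (h : Bd m (fun w => f w - g w) (y + ctr b u) C) :
    Bd m (fun z => f (z + ctr b u) - g z) y C := fun α hα => by
  have e : (fun z => f (z + ctr b u) - g z) = tr (ctr b u) fun w => f w - g w := funext fun z => by
    rw [tr, show z + ctr b u = (z.1 + sgn b * (u - 1), z.2) by ext <;> simp [ctr], hg (z.1 + _),
      ← hg z.1]
  rw [e, pdl_tr]
  exact h α hα

theorem bd_of {f g : X3 → ℝ} (hf : ContDiff ℝ ∞ f) (hg : ContDiff ℝ ∞ g) {m : ℕ} {C C' : ℝ}
    {y : X3} (h : Bd m (fun w => f w - g w) y C) (h' : Bd m g y C') : Bd m f y (C + C') :=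
  fun α hα => by
  have k := h α hα
  rw [pdl_sub hf hg] at k
  exact (norm_le_norm_sub_add _ _).trans (add_le_add k (h' α hα))

theorem far (hC : COREK) {χ0 : X3 → ℝ} {Λ : ℝ} (hχ : Prof χ0 Λ) (b : Bool)
    {F K hs Ks T : X3 → M3} {χ : X3 → ℝ} {K1 : Set X3} {s : ℝ} (s0 : 0 < s) (D : PD F K)
    (cc : ∀ y, CC F K y) (Ds : PD hs Ks)
    (st : ∀ x y, hs (x, y) = hs (0, y) ∧ Ks (x, y) = Ks (0, y))
    (dif : ∀ m, ∃ C, 0 ≤ C ∧ ∀ z : X3, ‖z.2‖ ≤ 4 → ∀ a b,
      Bd m (fun w => F w a b - hs w a b) z (C * wt s z) ∧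
        Bd m (fun w => K w a b - Ks w a b) z (C * wt s z))
    (k1 : IsCompact K1) (k2 : K1 ⊆ cube)
    (W : Wit pd K1 (jet hs fun z => piOf (hs z) (Ks z)) (jet 0 T) χ) (m : ℕ) :
    ∃ (M : ℕ) (C : ℝ), ∀ᶠ u in atTop, ∃ h' K', Res b (8 * Λ + 1) (u ^ (s + 1))
      (((u ^ (s + 1)) ^ M)⁻¹ * u ^ (s + 1) / 8) (C / u ^ (s + 1)) m K1
        (tr (ctr b u) F) (tr (ctr b u) K) h' K' := by
  have hB := isCompact_closedBall (0 : X3) 4
  have d2 : ∀ m, ∃ C, 0 ≤ C ∧ ∀ u a c, ∀ y ∈ cube,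
      Bd m (fun z => tr (ctr b u) F z a c - hs z a c) y (C * wt s (y + ctr b u)) ∧
        Bd m (fun z => tr (ctr b u) K z a c - Ks z a c) y (C * wt s (y + ctr b u)) := fun m => by
    obtain ⟨C, h0, h⟩ := dif m
    refine ⟨C, h0, fun u a c y hy => ?_⟩
    have k := h (y + ctr b u) (by
      rw [show (y + ctr b u).2 = y.2 by simp [ctr]]
      exact (norm_snd_le y).trans (mem_closedBall_zero_iff.1 (cube_ball hy))) a c
    exact ⟨bd_tr (fun x y => by rw [(st x y).1]) k.1, bd_tr (fun x y => by rw [(st x y).2]) k.2⟩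
  have cv : ∀ m, ∀ η > 0, ∀ᶠ u in atTop, ∀ a c, ∀ y ∈ cube,
      Bd m (fun z => tr (ctr b u) F z a c - hs z a c) y η ∧
        Bd m (fun z => tr (ctr b u) K z a c - Ks z a c) y η := fun m η hη => by
    obtain ⟨C, h0, h⟩ := d2 m
    have t := ((tendsto_rpow_neg_atTop s0).comp
      (tendsto_atTop_add_const_right _ (-5) tendsto_id)).const_mul C
    rw [mul_zero] at t
    filter_upwards [t.eventually_le_const hη, eventually_gt_atTop 5] with u h1 h2 a c y hy
    have k := (mul_le_mul_of_nonneg_left (wt_far s0.le b hy h2) h0).trans h1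
    exact ⟨(h u a c y hy).1.mono le_rfl k, (h u a c y hy).2.mono le_rfl k⟩
  obtain ⟨c, c0, lo⟩ := unif_pos hB Ds.sh fun z => (Ds.pos z).1
  obtain ⟨u1, h1⟩ := eventually_atTop.1 (cv 0 (c / 6) (by positivity))
  have t : Tendsto (fun u : ℝ => max u (max u1 1)) atTop atTop :=
    tendsto_atTop_mono (fun u => le_max_left _ _) tendsto_id
  obtain ⟨M, C, H⟩ := chart hC hχ b atTop (h := fun u => tr (ctr b (max u (max u1 1))) F)
    (K := fun u => tr (ctr b (max u (max u1 1))) K) (lam := fun u => max u (max u1 1) ^ (s + 1))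
    m (half_pos c0) (fun u => PD_tr D _) (fun u y => (CC_tr _ _ _ _).2 (cc _)) (fun m => by
      obtain ⟨C, h0, h⟩ := d2 m
      choose B1 _ b1 using fun t : Fin 3 × Fin 3 => P354JP.bd_compact m hB (Ds.sh t.1 t.2)
      choose B2 _ b2 using fun t : Fin 3 × Fin 3 => P354JP.bd_compact m hB (Ds.sK t.1 t.2)
      obtain ⟨C1, c1⟩ := (finite_range B1).bddAbove
      obtain ⟨C2, c2⟩ := (finite_range B2).bddAbove
      refine ⟨C + max C1 C2, fun u a c y hy => ?_⟩
      have w := mul_le_of_le_one_right h0 (wt_le_one s0.le (y + ctr b (max u (max u1 1))))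
      exact ⟨(bd_of ((PD_tr D _).sh a c) (Ds.sh a c) (h _ a c y hy).1
        (b1 (a, c) y (cube_ball hy))).mono le_rfl
          (add_le_add w (le_max_of_le_left (c1 (mem_range_self _)))),
        (bd_of ((PD_tr D _).sK a c) (Ds.sK a c) (h _ a c y hy).2
          (b2 (a, c) y (cube_ball hy))).mono le_rfl
            (add_le_add w (le_max_of_le_right (c2 (mem_range_self _))))⟩)
    (fun u y hy => by
      have := (Lo.add (G := hs y) (H := tr (ctr b (max u (max u1 1))) F y - hs y)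
        (lo y (cube_ball hy)) fun a c =>
          (h1 _ (le_max_of_le_right (le_max_left _ _)) a c y hy).1.zero).mono
            (c' := c / 2) (by linarith)
      rwa [add_sub_cancel] at this) Ds k1 k2 W (fun η hη => t.eventually (cv 2 η hη))
    (fun u => Real.one_le_rpow (le_max_of_le_right (le_max_right _ _)) (by linarith))
    ((tendsto_rpow_atTop (by linarith)).comp t)
  refine ⟨M, C, ?_⟩
  filter_upwards [H, eventually_ge_atTop (max u1 1)] with u h hu
  rwa [max_eq_left hu] at h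

theorem dif_of {s : ℝ} {d k : Dat} (D : PDy d) (D' : PDy k) (fin : ∀ m, pm s m d k < ⊤) (σ : Bool)
    (m : ℕ) : ∃ C, 0 ≤ C ∧ ∀ z : X3, ‖z.2‖ ≤ 4 → ∀ a b,
      Bd m (fun w => pb σ d.h w a b - pb σ k.h w a b) z (C * wt s z) ∧
        Bd m (fun w => pb σ d.K w a b - pb σ k.K w a b) z (C * wt s z) := by
  obtain ⟨C, h0, hP⟩ := P354JP.pbe m 4
  have e := (ENNReal.ofReal_toReal (fin m).ne).ge
  refine ⟨C * (pm s m d k).toReal, by positivity, fun z hz a b => ?_⟩
  have h1 := hP s _ (fun y => d.h y - k.h y) ENNReal.toReal_nonneg (fun i j =>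
    ⟨(D.1 i j).1.sub (D'.1 i j).1, (wn_le_pm s _ d k i j).1.trans e⟩) σ z hz a b
  have h2 := hP s _ (fun y => d.K y - k.K y) ENNReal.toReal_nonneg (fun i j =>
    ⟨(D.1 i j).2.sub (D'.1 i j).2, (wn_le_pm s _ d k i j).2.trans e⟩) σ z hz a b
  simp only [pb_sub] at h1 h2
  exact ⟨h1, h2⟩

theorem exp_le {κ q : ℝ} (hκ : 0 < κ) :
    ∀ᶠ u : ℝ in atTop, Real.exp (-κ * (u - 2)) * u ^ q ≤ 1 / 8 := by
  have t := (tendsto_rpow_mul_exp_neg_mul_atTop_nhds_zero q κ hκ).const_mul (Real.exp (2 * κ))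
  rw [mul_zero] at t
  filter_upwards [t.eventually_le_const (show (0 : ℝ) < 1 / 8 by norm_num)] with u hu
  rw [show -κ * (u - 2) = 2 * κ + -κ * u by ring, Real.exp_add]
  linarith

theorem kick (hC : COREK) (hW : WIT) : KICK := by
  intro M a s κ ha hM hs hκ
  obtain ⟨χ0, Λ, hχ⟩ := ex_prof
  obtain ⟨μ, μ0, hμ⟩ := hW M a ha hM
  refine ⟨8 * Λ + 1, μ, μ0, fun ρ hρ hk _ => ⟨0, 1, one_pos, fun d hd _ σ b m ε R0 hε => ?_⟩⟩
  have r0 : 0 < rm M a + ρ := add_pos (P354IK.rm_pos ha hM) hρ.1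
  have e1 : pb σ (kerr M a (rm M a + ρ)).h = hS M a (rm M a + ρ) σ :=
    funext fun z => Matrix.ext fun i j => (P354JK.ker M a _ r0 σ z i j).1
  have e2 : pb σ (kerr M a (rm M a + ρ)).K = kS M a (rm M a + ρ) σ :=
    funext fun z => Matrix.ext fun i j => (P354JK.ker M a _ r0 σ z i j).2
  have Dk : PDy (kerr M a (rm M a + ρ)) := ⟨hk.smooth, hk.pos⟩
  have Dd : PDy d := ⟨hd.smooth, hd.pos⟩
  obtain ⟨K1, T, χ, k1, k2, k3, W⟩ := hμ ρ hρ σ b (e1 ▸ e2 ▸ Dk.toPD σ)
  rw [← e1, ← e2] at W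
  obtain ⟨N, C, H⟩ := far hC hχ b (one_pos.trans hs) (Dd.toPD σ)
    (fun y => ((sl2 d σ Dd).2 y).2 ⟨hd.hamilton _ (phi_ne σ y), hd.momentum _ (phi_ne σ y)⟩)
    (Dk.toPD σ) (P354IN.stat r0 σ) (dif_of Dd Dk hd.finite σ) k1 k2 W m
  obtain ⟨Cp, -, hP⟩ := P354KU.push sl2 s m (by linarith)
  have t := tendsto_inv_atTop_zero.const_mul (Cp * C)
  rw [mul_zero] at t
  obtain ⟨u, ⟨h', K', R⟩, u1, u2, u3, u4⟩ := (H.and ((exp_le (q := (s + 1) * N) hκ).and
    ((t.eventually_lt_const hε).and ((eventually_ge_atTop (R0 + 2)).and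
      (eventually_ge_atTop 5))))).exists
  have u0 : 0 < u := by linarith
  have l5 : u ≤ u ^ (s + 1) := Real.self_le_rpow_of_one_le (by linarith) (by linarith)
  obtain ⟨d', p1, p2, p3, p4⟩ := hP M a _ σ d (tr (-ctr b u) h') (tr (-ctr b u) K')
    (sgn b * (u - 1)) _ hd (tr_add' _ _ h' ▸ tr_add' _ _ K' ▸ PD_tr R.pd _)
    (fun y => tr_add' _ _ h' ▸ tr_add' _ _ K' ▸ (CC_tr _ _ _ _).2 (R.cc _))
    (fun y hy => R.supp _ (by rwa [← sub_eq_add_neg])) fun α hα y i j => by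
      rw [show (fun z => tr (-ctr b u) h' z i j) = tr (-ctr b u) fun z => h' z i j from rfl,
        show (fun z => tr (-ctr b u) K' z i j) = tr (-ctr b u) fun z => K' z i j from rfl,
        pdl_tr, pdl_tr]
      exact R.small α hα _ i j
  refine ⟨u - 2, by linarith, _, ?_, d', p1, p4.trans_lt ((ENNReal.ofReal_lt_ofReal_iff hε).2
    (lt_of_eq_of_lt ?_ u2)), by
      rw [Ud, Ud, p2, p3]
      exact kick_of R k3 (u4.trans l5)⟩
  · rw [Real.rpow_mul_natCast u0.le] at u1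
    have p : 0 < (u ^ (s + 1)) ^ N := by positivity
    rw [ge_iff_le, le_div_iff₀ (by norm_num), le_inv_mul_iff₀ p]
    linarith
  · rw [abs_sgn, abs_of_pos (by linarith), add_sub_cancel, Real.rpow_add_one u0.ne']
    field_simp

end Vale.Agent.P354KK
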