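import Vale.Agent.P354KK.An
import Vale.Agent.P354J.Sl

open scoped ContDiff
open Set Filter Topology Matrix

noncomputable section

namespace Vale.Agent.P354KK

open Vale.Agent.P354H (X3 pd pdl)
open Vale.Agent.P354C (Ix)
open Vale.Agent.P354J

section
variable {D : Type} {H : ℕ → ℝ → ℝ → X3 → D → D → Prop} {k : ℕ} {l m n : Type}

/-- Matrix valued tame operators. -/
def MT (H : ℕ → ℝ → ℝ → X3 → D → D → Prop) (k : ℕ) (M : D → X3 → Matrix m n ℝ) : Prop :=
  ∀ a b, Tk H k fun d y => M d y a b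

variable {M N : D → X3 → Matrix m n ℝ}

theorem MT.low (h : MT H (k + 1) M) : MT H k M := fun a b => (h a b).low

theorem MT.add (h : MT H k M) (h' : MT H k N) : MT H k fun d y => M d y + N d y :=
  fun a b => (h a b).add (h' a b)

theorem MT.sub (h : MT H k M) (h' : MT H k N) : MT H k fun d y => M d y - N d y :=
  fun a b => (h a b).sub (h' a b)

theorem MT.smul {c : D → X3 → ℝ} (hc : Tk H k c) (h : MT H k M) :
    MT H k fun d y => c d y • M d y := fun a b => hc.mul (h a b)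

theorem MT.const (M : Matrix m n ℝ) : MT H k fun _ _ => M := fun _ _ => Tk.const _

theorem MT.tr (h : MT H k M) : MT H k fun d y => (M d y)ᵀ := fun a b => h b a

theorem MT.md (h : MT H (k + 1) M) (j : Fin 3) : MT H k fun d => MD j (M d) :=
  fun a b => (h a b).pd j

theorem MT.mul [Fintype m] {M : D → X3 → Matrix l m ℝ} (h : MT H k M) (h' : MT H k N) :
    MT H k fun d y => M d y * N d y := fun a b => by
  simp only [Matrix.mul_apply]
  exact Tk.sum _ fun c => (h a c).mul (h' c b)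

theorem MT.sum {ι : Type} (s : Finset ι) {M : ι → D → X3 → Matrix m n ℝ}
    (h : ∀ i, MT H k (M i)) : MT H k fun d y => ∑ i ∈ s, M i d y := fun a b => by
  simp only [Matrix.sum_apply]
  exact Tk.sum _ fun i => h i a b

theorem MT.blk {c : D → X3 → ℝ} {r l : D → X3 → Fin 3 → ℝ} {B : D → X3 → M3} (hc : Tk H k c)
    (hr : ∀ j, Tk H k fun d y => r d y j) (hl : ∀ j, Tk H k fun d y => l d y j) (hB : MT H k B) :
    MT H k fun d y => blk (c d y) (r d y) (l d y) (B d y) := by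
  intro a b
  refine Fin.cases ?_ (fun k => ?_) a <;> refine Fin.cases ?_ (fun j => ?_) b
  · exact hc
  · exact hr j
  · exact hl k
  · exact hB k j

end

/-- Data h, K + c κ. -/
structure Dt where
  h : X3 → M3
  K : X3 → M3
  κ : X3 → M3
  c : X3 → ℝ
  pd : PD h K
  sκ : MS κ
  sc : ContDiff ℝ ∞ c

/-- The hypotheses of the estimates. -/
structure Hyp (Q : Set N3) (m : ℕ) (B ε : ℝ) (x : X3) (d d' : Dt) : Prop where
  h : ∀ a b, An 2 (m + 2) B ε x (fun y => d.h y a b) fun y => d'.h y a b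
  K : ∀ a b, An 1 (m + 1) B ε x (fun y => d.K y a b) fun y => d'.K y a b
  κ : ∀ a b, An 1 (m + 1) B ε x (fun y => d.κ y a b) fun y => d'.κ y a b
  c : An 0 (m + 0) B ε x d.c d'.c
  q : (d.h x : N3) ∈ Q ∧ (d'.h x : N3) ∈ Q

/-- The part of the connection which is linear in κ. -/
def gk (h κ : X3 → M3) (i : Fin 3) (y : X3) : M4 :=
  blk 0 (κ y i) (fun k => ∑ l, (h y)⁻¹ k l * κ y i l) 0

def Dt.A (d : Dt) : Fin 3 → X3 → M4 := GW d.h (fun y => (d.h y)⁻¹) d.K
def Dt.S (d : Dt) : X3 → M4 := S0 (fun y => Oh (d.h y)) fun y => Eh (d.h y)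
def Dt.T (d : Dt) : X3 → M4 := T0 (fun y => Oh (d.h y)) fun y => (Eh (d.h y))⁻¹
def Dt.Kc (d : Dt) (y : X3) : M3 := d.K y + d.c y • d.κ y

/-- The curvature without the derivatives of c. -/
def Dt.cv (d : Dt) (i j : Fin 3) (y : X3) : M4 :=
  curv d.A i j y + d.c y • (MD i (gk d.h d.κ j) y - MD j (gk d.h d.κ i) y +
    d.A i y * gk d.h d.κ j y + gk d.h d.κ i y * d.A j y - d.A j y * gk d.h d.κ i y -
    gk d.h d.κ j y * d.A i y) +
    (d.c y * d.c y) • (gk d.h d.κ i y * gk d.h d.κ j y - gk d.h d.κ j y * gk d.h d.κ i y)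

def Dt.F (d : Dt) (a b : Fin 3) (y : X3) : M4 :=
  ∑ i, ∑ j, (Eh (d.h y) a i * Eh (d.h y) b j) • (d.T y * d.cv i j y * d.S y)

/-- The Weyl components from the curvature in the null frame. -/
def uR (R : Fin 3 → Fin 3 → M4) : Ix → ℝ
  | .a1 => (R 0 2 1 3 - R 0 1 1 2) / 2
  | .a2 => -(R 0 2 1 2 + R 0 1 1 3) / 2
  | .be1 => R 1 2 1 3
  | .be2 => -R 1 2 1 2
  | .rho => R 1 2 3 2 / 2
  | .sig => R 1 2 0 0 / 2
  | .bb1 => -R 1 2 0 3
  | .bb2 => R 1 2 0 2
  | .ab1 => (R 0 1 0 2 - R 0 2 0 3) / 2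
  | .ab2 => (R 0 2 0 2 + R 0 1 0 3) / 2
  | _ => 0

def nf (F : Fin 3 → Fin 3 → M4) (s t : Fin 3) : M4 := (cT s * cT t) • (Zi * F s t * Z)

/-- The initial values without the derivatives of c. -/
def Dt.U (d : Dt) (y : X3) (i : Ix) : ℝ :=
  if isW i then uR (nf fun a b => d.F a b y) i else U1 d.h d.Kc y i

section
variable {Q : Set N3}

theorem tk_base {k : ℕ} {T : Dt → X3 → ℝ} (hs : ∀ d, ContDiff ℝ ∞ (T d))
    (h : ∀ m B ε x d d', Hyp Q m B ε x d d' → An k (m + k) B ε x (T d) (T d')) :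
    Tk (Hyp Q) k T :=
  ⟨hs, fun m B => ⟨max B 1, le_max_of_le_right zero_le_one, fun ε x d d' hε H =>
    (h m B ε x d d' H).mono le_rfl le_rfl (le_max_left _ _)
      (le_mul_of_one_le_left hε (le_max_right _ _))⟩⟩

theorem mt_h : MT (Hyp Q) 2 Dt.h := fun a b =>
  tk_base (fun d => d.pd.sh a b) fun _ _ _ _ _ _ H => H.h a b
theorem mt_K : MT (Hyp Q) 1 Dt.K := fun a b =>
  tk_base (fun d => d.pd.sK a b) fun _ _ _ _ _ _ H => H.K a b
theorem mt_κ : MT (Hyp Q) 1 Dt.κ := fun a b =>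
  tk_base (fun d => d.sκ a b) fun _ _ _ _ _ _ H => H.κ a b
theorem tk_c : Tk (Hyp Q) 0 Dt.c := tk_base (fun d => d.sc) fun _ _ _ _ _ _ H => H.c

variable (hQ : Q ⊆ OO) (hc : IsCompact Q) (hv : Convex ℝ Q)
include hQ hc hv

theorem tk_F {F : N3 → ℝ} (hF : ContDiffOn ℝ ∞ F OO) : Tk (Hyp Q) 2 fun d y => F (d.h y) := by
  have h : Tk (Hyp Q) 2 fun d => (fun y a b => d.h y a b : X3 → N3) :=
    ⟨fun d => d.pd.smN, fun m B => ⟨max B 1, le_max_of_le_right zero_le_one, fun ε x d d' hε H =>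
      (An.pi (H.c.bf.nonneg) hε fun a => An.pi (H.c.bf.nonneg) hε fun b => H.h a b).mono le_rfl
        le_rfl (le_max_left _ _) (le_mul_of_one_le_left hε (le_max_right _ _))⟩⟩
  exact h.compOn isOpen_OO hF hQ hc hv (fun d y => d.pd.oo y) fun _ _ _ _ _ _ H => H.q

theorem mt_hi : MT (Hyp Q) 2 fun d y => (d.h y)⁻¹ := fun a b => tk_F hQ hc hv (sm_hi a b)
theorem mt_E : MT (Hyp Q) 2 fun d y => Eh (d.h y) := fun a b => tk_F hQ hc hv (sm_Eh a b)

theorem mt_S : MT (Hyp Q) 2 Dt.S :=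
  MT.blk (tk_F hQ hc hv sm_Oh) (fun _ => Tk.const _) (fun _ => Tk.const _) (mt_E hQ hc hv).tr

theorem mt_T : MT (Hyp Q) 2 Dt.T :=
  MT.blk (tk_F hQ hc hv (sm_Oh.inv fun _ h => (Oh_pos h.2.1 h.2.2).ne')) (fun _ => Tk.const _)
    (fun _ => Tk.const _) (MT.tr fun a b => tk_F hQ hc hv (sm_Ehi a b))

theorem mt_chr (i : Fin 3) : MT (Hyp Q) 1 fun d => Chr d.h (fun y => (d.h y)⁻¹) i := fun a b =>
  Tk.sum Finset.univ fun l => ((mt_hi hQ hc hv).low a l).mul
    (((mt_h.md i b l).add (mt_h.md b i l)).sub (mt_h.md l i b)).half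

theorem mt_A (i : Fin 3) : MT (Hyp Q) 1 fun d => d.A i :=
  MT.blk (Tk.const _) (mt_K i) (fun a => Tk.sum _ fun l => ((mt_hi hQ hc hv).low a l).mul (mt_K i l))
    (mt_chr hQ hc hv i)

theorem mt_g (i : Fin 3) : MT (Hyp Q) 1 fun d => gk d.h d.κ i :=
  MT.blk (Tk.const _) (mt_κ i) (fun a => Tk.sum _ fun l => ((mt_hi hQ hc hv).low a l).mul (mt_κ i l))
    (MT.const _)

theorem mt_F (a b : Fin 3) : MT (Hyp Q) 0 fun d => d.F a b := by
  have A := mt_A hQ hc hv
  have g := mt_g hQ hc hv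
  have E := (mt_E hQ hc hv).low.low
  refine MT.sum _ fun i => MT.sum _ fun j => MT.smul ((E a i).mul (E b j))
    (((mt_T hQ hc hv).low.low.mul ?_).mul (mt_S hQ hc hv).low.low)
  exact ((((((A j).md i).sub ((A i).md j)).add ((A i).low.mul (A j).low)).sub
    ((A j).low.mul (A i).low)).add (MT.smul tk_c (((((((g j).md i).sub ((g i).md j)).add
      ((A i).low.mul (g j).low)).add ((g i).low.mul (A j).low)).sub ((A j).low.mul (g i).low)).sub
      ((g j).low.mul (A i).low)))).add (MT.smul (tk_c.mul tk_c)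
      (((g i).low.mul (g j).low).sub ((g j).low.mul (g i).low)))

theorem mt_G (a : Fin 3) : MT (Hyp Q) 0 fun d => Gh d.h d.Kc a := by
  have K : MT (Hyp Q) 0 Dt.Kc := mt_K.low.add (MT.smul tk_c mt_κ.low)
  have T := (mt_T hQ hc hv).low.low
  exact MT.sum Finset.univ fun i => MT.smul ((mt_E hQ hc hv).low.low a i) (MT.add
    ((T.mul (MT.blk (Tk.const 0) (K i) (fun a => Tk.sum Finset.univ fun l =>
      ((mt_hi hQ hc hv).low.low a l).mul (K i l)) (mt_chr hQ hc hv i).low)).mul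
      (mt_S hQ hc hv).low.low) (T.mul ((mt_S hQ hc hv).low.md i)))

theorem tk_U (i : Ix) : Tk (Hyp Q) 0 fun d y => d.U y i := by
  have g := mt_G hQ hc hv
  have f := fun {F} (hF : ContDiffOn ℝ ∞ F OO) => (tk_F hQ hc hv hF).low.low
  have R : ∀ s t, MT (Hyp Q) 0 fun d y => nf (fun a b => d.F a b y) s t := fun s t =>
    MT.smul (Tk.const _) (((MT.const Zi).mul (mt_F hQ hc hv s t)).mul (MT.const Z))
  unfold Dt.U
  cases i
  case O => exact f sm_Oh
  case b1 => exact f sm_bh1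
  case b2 => exact f sm_bh2
  case P11 => exact f sm_ph11
  case P12 => exact f sm_ph12
  case P21 => exact f sm_ph12
  case P22 => exact f sm_ph22
  case om => exact (g _ _ _).add (g _ _ _)
  case p1 => exact ((g _ _ _).add (g _ _ _)).half
  case p2 => exact ((g _ _ _).add (g _ _ _)).half
  case omb => exact ((g _ _ _).sub (g _ _ _)).neg
  case q1 => exact ((g _ _ _).sub (g _ _ _)).half
  case q2 => exact ((g _ _ _).sub (g _ _ _)).half
  case r0 => exact (Tk.const _).mul (g _ _ _)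
  case r1 => exact g _ _ _
  case r2 => exact g _ _ _
  case A1 => exact ((g _ _ _).add (g _ _ _)).neg
  case A2 => exact ((g _ _ _).add (g _ _ _)).neg
  case X11 => exact ((g _ _ _).add (g _ _ _)).half
  case X12 => exact ((g _ _ _).add (g _ _ _)).half
  case X21 => exact ((g _ _ _).add (g _ _ _)).half
  case X22 => exact ((g _ _ _).add (g _ _ _)).half
  case B1 => exact (g _ _ _).sub (g _ _ _)
  case B2 => exact (g _ _ _).sub (g _ _ _)
  case Y11 => exact ((g _ _ _).sub (g _ _ _)).half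
  case Y12 => exact ((g _ _ _).sub (g _ _ _)).half
  case Y21 => exact ((g _ _ _).sub (g _ _ _)).half
  case Y22 => exact ((g _ _ _).sub (g _ _ _)).half
  case a1 => exact ((R _ _ _ _).sub (R _ _ _ _)).half
  case a2 => exact ((R _ _ _ _).add (R _ _ _ _)).neg.half
  case be1 => exact R _ _ _ _
  case be2 => exact (R _ _ _ _).neg
  case rho => exact (R _ _ _ _).half
  case sig => exact (R _ _ _ _).half
  case bb1 => exact (R _ _ _ _).neg
  case bb2 => exact R _ _ _ _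
  case ab1 => exact ((R _ _ _ _).sub (R _ _ _ _)).half
  case ab2 => exact ((R _ _ _ _).add (R _ _ _ _)).half

end

theorem U0_eq {h K : X3 → M3} (D : PD h K) (y : X3) (i : Ix) : U0 h K y i =
    if isW i then uR (nf fun a b => Fh h K a b y) i else U1 h K y i := by
  cases hi : isW i
  · simp only [U0, u2_of _ _ hi, Bool.false_eq_true, if_false]
  · cases i <;> first
      | exact absurd hi (by decide)
      | simp only [U0, u2, D.curT1, uR, nf, if_true]

theorem GW_Kc (d : Dt) : GW d.h (fun y => (d.h y)⁻¹) d.Kc =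
    fun i y => d.A i y + d.c y • gk d.h d.κ i y := by
  funext i y
  ext a b
  refine Fin.cases ?_ (fun k => ?_) a <;> refine Fin.cases ?_ (fun j => ?_) b <;>
    simp only [GW, Dt.A, gk, Dt.Kc, Matrix.add_apply, Matrix.smul_apply, blk_00, blk_0s, blk_s0,
      blk_ss, smul_eq_mul, mul_zero, add_zero, Matrix.zero_apply, mul_add, Finset.sum_add_distrib,
      Finset.mul_sum, mul_left_comm (d.c y)]

theorem ms_g (d : Dt) (i : Fin 3) : MS (gk d.h d.κ i) :=
  MS.blk contDiff_const (d.sκ i) (fun k => ContDiff.sum fun l _ => (d.pd.dat.shi k l).mul (d.sκ i l))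
    (MS.const _)

theorem curv_Kc (d : Dt) (i j : Fin 3) (y : X3) : curv (GW d.h (fun y => (d.h y)⁻¹) d.Kc) i j y =
    d.cv i j y + (pd i d.c y • gk d.h d.κ j y - pd j d.c y • gk d.h d.κ i y) := by
  have e : ∀ i j, MD i (fun y => d.A j y + d.c y • gk d.h d.κ j y) y =
      MD i (d.A j) y + (pd i d.c y • gk d.h d.κ j y + d.c y • MD i (gk d.h d.κ j) y) := fun i j => by
    rw [MD_add (M := d.A j) (d.pd.dat.gw j) (MS.smul d.sc (ms_g d j)), MD_smul d.sc (ms_g d j)]
  rw [GW_Kc]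
  simp only [curv, Dt.cv, e, mul_add, add_mul, Matrix.smul_mul, Matrix.mul_smul, smul_add, smul_sub,
    smul_smul]
  abel

/-- The leading matrices. -/
def NN : M3 := !![0, 0, 0; 0, 1, 0; 0, 0, -1]
def Ld (a b : Fin 3) : M4 := (if a = 0 then (1 : ℝ) else 0) • blk 0 (NN b) (NN b) 0 -
  (if b = 0 then (1 : ℝ) else 0) • blk 0 (NN a) (NN a) 0
def cf (i : Ix) : ℝ := uR (nf Ld) i

theorem lead (d : Dt) (y : X3) {t : ℝ}
    (ht : Eh (d.h y) * d.κ y * (Eh (d.h y))ᵀ = (t * Oh (d.h y)) • NN) (b : Fin 3) :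
    ∑ j, Eh (d.h y) b j • (d.T y * gk d.h d.κ j y * d.S y) = t • blk 0 (NN b) (NN b) 0 := by
  have F := d.pd.frm
  have o := F.ne y
  have e1 : ((Eh (d.h y))⁻¹)ᵀ * (d.h y)⁻¹ = (Oh (d.h y) ^ 2)⁻¹ • Eh (d.h y) := by
    have := F.hi_eq d.pd.dat y
    have e := congrArg (fun M => (Oh (d.h y) ^ 2)⁻¹ • (((Eh (d.h y))⁻¹)ᵀ * M)) this
    simp only [Matrix.mul_smul, smul_smul, inv_mul_cancel₀ (pow_ne_zero 2 o), one_smul, mul_one,
      ← mul_assoc, ← transpose_mul, F.inv' y, transpose_one, one_mul] at e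
    exact e.symm
  have e2 := fun s => congrFun (congrFun ht b) s
  have e3 := fun s l => congrFun (congrFun e1 s) l
  simp only [Matrix.mul_apply, transpose_apply, Matrix.smul_apply, smul_eq_mul,
    Fin.sum_univ_three] at e2 e3
  ext p q
  refine Fin.cases ?_ (fun s => ?_) p <;> refine Fin.cases ?_ (fun u => ?_) q <;>
    simp only [Dt.T, Dt.S, T0, S0, gk, Matrix.sum_apply, Matrix.smul_apply, Matrix.mul_apply,
      Fin.sum_univ_succ (n := 3), blk_00, blk_0s, blk_s0, blk_ss, Pi.zero_apply, smul_eq_mul,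
      mul_zero, zero_mul, add_zero, zero_add, Matrix.zero_apply, Finset.sum_const_zero,
      transpose_apply, Fin.sum_univ_three]
  · field_simp
    linear_combination e2 u
  · have := e2 s
    have k0 := e3 s 0
    have k1 := e3 s 1
    have k2 := e3 s 2
    field_simp at k0 k1 k2
    refine mul_left_cancel₀ o ?_
    linear_combination this + (Eh (d.h y) b 0 * d.κ y 0 0 + Eh (d.h y) b 1 * d.κ y 1 0 +
      Eh (d.h y) b 2 * d.κ y 2 0) * k0 + (Eh (d.h y) b 0 * d.κ y 0 1 + Eh (d.h y) b 1 * d.κ y 1 1 +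
      Eh (d.h y) b 2 * d.κ y 2 1) * k1 + (Eh (d.h y) b 0 * d.κ y 0 2 + Eh (d.h y) b 1 * d.κ y 1 2 +
      Eh (d.h y) b 2 * d.κ y 2 2) * k2

theorem uR_add (F G : Fin 3 → Fin 3 → M4) (t : ℝ) (i : Ix) :
    uR (nf fun a b => F a b + t • G a b) i = uR (nf F) i + t * uR (nf G) i := by
  have e : ∀ s u j k, nf (fun a b => F a b + t • G a b) s u j k = nf F s u j k + t * nf G s u j k :=
    fun s u j k => by
      simp only [nf, mul_add, add_mul, Matrix.mul_smul, Matrix.smul_mul, Matrix.smul_apply,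
        Matrix.add_apply, smul_eq_mul]
      ring
  cases i <;> simp only [uR, e] <;> ring

theorem cf_zero {i : Ix} (hi : isW i = false) : cf i = 0 := by
  cases i <;> first | rfl | exact absurd hi (by decide)

/-- The initial values of (h, K + c κ). -/
theorem U0_Kc (d : Dt) (D : PD d.h d.Kc) (y : X3) {t : ℝ} (h1 : pd 1 d.c y = 0) (h2 : pd 2 d.c y = 0)
    (ht : Eh (d.h y) * d.κ y * (Eh (d.h y))ᵀ = (t * Oh (d.h y)) • NN) (i : Ix) :
    U0 d.h d.Kc y i = d.U y i + pd 0 d.c y * t * cf i := by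
  have e : ∀ a b, Fh d.h d.Kc a b y = d.F a b y + (pd 0 d.c y * t) • Ld a b := fun a b => by
    have la := lead d y ht a
    have lb := lead d y ht b
    have e0 : ∀ a, Eh (d.h y) a 0 = if a = 0 then 1 else 0 := fun a => by
      fin_cases a <;> simp [Eh]
    have e1 : (pd 0 d.c y * t) • Ld a b = pd 0 d.c y •
        (Eh (d.h y) a 0 • ∑ j, Eh (d.h y) b j • (d.T y * gk d.h d.κ j y * d.S y) -
          Eh (d.h y) b 0 • ∑ j, Eh (d.h y) a j • (d.T y * gk d.h d.κ j y * d.S y)) := by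
      rw [la, lb, e0, e0, Ld]
      module
    rw [e1]
    simp only [Fh, ev2, om, curv_gauge D.frm.sS D.frm.sT D.dat.gw D.frm.TS, curv_Kc]
    simp only [Dt.F, Fin.sum_univ_three, h1, h2, zero_smul, mul_add, add_mul, mul_sub, sub_mul,
      Matrix.mul_smul, Matrix.smul_mul, Dt.T, Dt.S]
    module
  rw [U0_eq D, Dt.U]
  cases hi : isW i
  · simp [cf_zero hi]
  · simp only [e, uR_add, if_true, cf]

theorem blk_eq (r : Fin 3 → ℝ) :
    blk 0 r r 0 = !![0, r 0, r 1, r 2; r 0, 0, 0, 0; r 1, 0, 0, 0; r 2, 0, 0, 0] := by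
  ext i j
  fin_cases i <;> fin_cases j <;> rfl

theorem cf_eq (i : Ix) : cf i = if i = .a1 then -1 else if i = .ab1 then 1 else 0 := by
  cases hi : isW i
  · rw [cf_zero hi]
    cases i <;> first | rfl | exact absurd hi (by decide)
  · cases i <;> first
      | exact absurd hi (by decide)
      | (simp [cf, uR, nf, Ld, blk_eq, NN, cT, Zi, Z]; done)
      | (simp [cf, uR, nf, Ld, blk_eq, NN, cT, Zi, Z]; norm_num)

end Vale.Agent.P354KK
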